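import Mathlib
import Vale.Agent.P151.Critical.Poly

/-!
Decision trees on finitely many Bernoulli coordinates: the two-function OSSS inequality, the second
moment of the explored sum, and the Lipschitz dependence on the density.
-/

namespace Vale.Agent.P151.Growth

open Finset Critical
open Function (update)

variable {α : Type} [DecidableEq α]

/-- A decision tree. -/
inductive DT (α : Type) : Type where
  | leaf : DT α
  | node : α → DT α → DT α → DT α

/-- The coordinates queried on the configuration, in the tree whose branch `true` is the first. -/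
def queried : DT α → (α → Bool) → Finset α
  | .leaf, _ => ∅
  | .node a t u, ω => insert a (if ω a then queried t ω else queried u ω)

/-- The tree only queries coordinates in `E`, each one at most once on a branch. -/
def Wf : DT α → Finset α → Prop
  | .leaf, _ => True
  | .node a t u, E => a ∈ E ∧ Wf t (E.erase a) ∧ Wf u (E.erase a)

/-- The queried coordinates determine `g`. -/
def Computes (T : DT α) (g : (α → Bool) → ℝ) : Prop :=
  ∀ ω ω', (∀ a ∈ queried T ω, ω a = ω' a) → g ω = g ω'

/-- Monotone functions of a configuration. -/
def Mono (f : (α → Bool) → ℝ) : Prop := ∀ ω a, f (update ω a false) ≤ f (update ω a true)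

/-- The sum of the centred coordinates along the branch. -/
def cz (T : DT α) (s : ℝ) (ω : α → Bool) : ℝ := ∑ a ∈ queried T ω, cen a s ω

/-- One if the coordinate is queried. -/
def rev (T : DT α) (a : α) (ω : α → Bool) : ℝ := if a ∈ queried T ω then 1 else 0

lemma rev_nonneg (T : DT α) (a : α) (ω : α → Bool) : 0 ≤ rev T a ω := by
  unfold rev; split_ifs <;> norm_num

lemma Wf.subset : ∀ {T : DT α} {E : Finset α}, Wf T E → ∀ ω, queried T ω ⊆ E
  | .leaf, _, _, _ => empty_subset _
  | .node a t u, E, h, ω => by
    refine insert_subset h.1 ?_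
    split_ifs
    · exact (h.2.1.subset ω).trans (erase_subset _ _)
    · exact (h.2.2.subset ω).trans (erase_subset _ _)

lemma queried_update : ∀ {T : DT α} {E : Finset α}, Wf T E → ∀ {a : α}, a ∉ E → ∀ (ω : α → Bool) b,
    queried T (update ω a b) = queried T ω
  | .leaf, _, _, _, _, _, _ => rfl
  | .node c t u, E, h, a, ha, ω, b => by
    have hne : c ≠ a := fun e => ha (e ▸ h.1)
    have ha' : a ∉ E.erase c := fun e => ha (mem_of_mem_erase e)
    simp [queried, Function.update_of_ne hne, queried_update h.2.1 ha', queried_update h.2.2 ha']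

lemma queried_node {a : α} {t u : DT α} {E : Finset α} (h : Wf (.node a t u) E) (ω : α → Bool)
    (b : Bool) : queried (.node a t u) (update ω a b) =
      insert a (if b then queried t ω else queried u ω) := by
  simp [queried, queried_update h.2.1 (notMem_erase a E), queried_update h.2.2 (notMem_erase a E)]

lemma rev_node_self {a : α} {t u : DT α} (ω : α → Bool) : rev (.node a t u) a ω = 1 := by
  simp [rev, queried]

lemma rev_node {a : α} {t u : DT α} {E : Finset α} (h : Wf (.node a t u) E) {c : α} (hc : c ≠ a)
    (ω : α → Bool) (b : Bool) :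
    rev (.node a t u) c (update ω a b) = if b then rev t c ω else rev u c ω := by
  unfold rev
  rw [queried_node h]
  cases b <;> simp [hc]

lemma ex_insert' {E : Finset α} {a : α} (ha : a ∈ E) (f : (α → Bool) → ℝ) (s : ℝ) :
    ex E f s = s * ex (E.erase a) (fun ω => f (update ω a true)) s
      + (1 - s) * ex (E.erase a) (fun ω => f (update ω a false)) s := by
  conv_lhs => rw [← insert_erase ha]
  rw [ex_insert (notMem_erase a E)]

lemma ex_const (E : Finset α) (c s : ℝ) : ex E (fun _ => c) s = c := by
  have h := ex_mul_left E c (fun _ => 1) s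
  simp only [mul_one, ex_one] at h
  exact h

lemma Computes.child {a : α} {t u : DT α} {E : Finset α} (h : Wf (.node a t u) E)
    {g : (α → Bool) → ℝ} (hg : Computes (.node a t u) g) (b : Bool) :
    Computes (if b then t else u) fun ω => g (update ω a b) := by
  intro ω ω' he
  refine hg _ _ fun c hc => ?_
  rcases eq_or_ne c a with rfl | hne
  · simp
  · rw [queried_node h, mem_insert] at hc
    rw [Function.update_of_ne hne, Function.update_of_ne hne]
    refine he c ?_
    cases b <;> simpa [hne] using hc

lemma Mono.comp {f : (α → Bool) → ℝ} (hf : Mono f) (a : α) (b : Bool) :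
    Mono fun ω => f (update ω a b) := by
  intro ω c
  rcases eq_or_ne c a with rfl | hne
  · simp
  · simp only [Function.update_comm hne]
    exact hf _ c

lemma dd_mix {f : (α → Bool) → ℝ} {a c : α} (hne : c ≠ a) (s : ℝ) (ω : α → Bool) :
    dd c (fun η => s * f (update η a true) + (1 - s) * f (update η a false)) ω
      = s * dd c f (update ω a true) + (1 - s) * dd c f (update ω a false) := by
  simp only [dd, Function.update_comm hne]
  ring

/-- The two-function OSSS inequality. -/
theorem osss {s : ℝ} (h0 : 0 ≤ s) (h1 : s ≤ 1) :
    ∀ (T : DT α) {E : Finset α}, Wf T E → ∀ {f g : (α → Bool) → ℝ}, Mono f →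
      (∀ ω, 0 ≤ g ω) → (∀ ω, g ω ≤ 1) → Computes T g →
      ex E (fun ω => f ω * g ω) s - ex E f s * ex E g s
        ≤ s * (1 - s) * ∑ a ∈ E, ex E (rev T a) s * ex E (dd a f) s := by
  intro T
  induction T with
  | leaf =>
    intro E _ f g _ _ _ hg
    have hc : g = fun _ => g fun _ => false := funext fun ω => hg _ _ (by simp [queried])
    rw [hc]
    simp only [ex_const]
    have : ex E (fun ω => f ω * g fun _ => false) s = ex E f s * g fun _ => false := by
      rw [show (fun ω => f ω * g fun _ => false) = fun ω => (g fun _ => false) * f ω from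
        funext fun ω => mul_comm _ _, ex_mul_left, mul_comm]
    rw [this, sub_self]
    refine mul_nonneg (mul_nonneg h0 (by linarith)) (sum_nonneg fun a _ => ?_)
    simp [show rev (DT.leaf : DT α) a = fun _ => (0 : ℝ) from funext fun ω => by simp [rev, queried], ex_const]
  | node a t u iht ihu =>
    intro E h f g hf hg0 hg1 hg
    let E' := E.erase a
    let f' : Bool → (α → Bool) → ℝ := fun b ω => f (update ω a b)
    let g' : Bool → (α → Bool) → ℝ := fun b ω => g (update ω a b)
    let fm : (α → Bool) → ℝ := fun ω => s * f' true ω + (1 - s) * f' false ω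
    have hfm : Mono fm := fun ω c => by
      have h' := hf.comp a true ω c
      have h'' := hf.comp a false ω c
      exact add_le_add (mul_le_mul_of_nonneg_left h' h0)
        (mul_le_mul_of_nonneg_left h'' (by linarith))
    have It := iht (E := E') h.2.1 (f := fm) (g := g' true) hfm (fun ω => hg0 _) (fun ω => hg1 _)
      (hg.child h true)
    have Iu := ihu (E := E') h.2.2 (f := fm) (g := g' false) hfm (fun ω => hg0 _) (fun ω => hg1 _)
      (hg.child h false)
    have hefm : ex E' fm s = ex E f s := by
      rw [ex_insert' h.1]
      simp only [fm, ex_add, ex_mul_left, f', E']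
    have hd : ∀ c ∈ E', ex E' (dd c fm) s = ex E (dd c f) s := by
      intro c hc
      rw [ex_insert' h.1, ← ex_mul_left, ← ex_mul_left, ← ex_add]
      exact congrArg (fun F => ex E' F s) (funext fun ω => dd_mix (ne_of_mem_erase hc) s ω)
    have hr : ∀ c ∈ E', ex E (rev (.node a t u) c) s
        = s * ex E' (rev t c) s + (1 - s) * ex E' (rev u c) s := by
      intro c hc
      rw [ex_insert' h.1]
      simp only [rev_node h (ne_of_mem_erase hc), if_true, Bool.false_eq_true, if_false]
      rfl
    have hra : ex E (rev (.node a t u) a) s = 1 := by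
      rw [show rev (.node a t u) a = fun _ => (1 : ℝ) from funext (rev_node_self (t := t) (u := u)),
        ex_one]
    have hsum : ∑ c ∈ E, ex E (rev (.node a t u) c) s * ex E (dd c f) s
        = ex E (dd a f) s + s * (∑ c ∈ E', ex E' (rev t c) s * ex E' (dd c fm) s)
          + (1 - s) * ∑ c ∈ E', ex E' (rev u c) s * ex E' (dd c fm) s := by
      conv_lhs => rw [← add_sum_erase E _ h.1, hra, one_mul]
      rw [mul_sum, mul_sum, add_assoc, ← sum_add_distrib]
      refine congrArg _ (sum_congr rfl fun c hc => ?_)
      rw [hr c hc, hd c hc]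
      ring
    have hpiv : ex E' (fun ω => (f' true ω - f' false ω) * (g' true ω - g' false ω)) s
        ≤ ex E (dd a f) s := by
      refine le_trans (ex_mono (g := fun ω => f' true ω - f' false ω) (fun ω => ?_) h0 h1)
        (le_of_eq ?_)
      · have h' : 0 ≤ f' true ω - f' false ω := sub_nonneg.2 (hf ω a)
        exact mul_le_of_le_one_right h' (by linarith [hg0 (update ω a false), hg1 (update ω a true)])
      · rw [ex_insert' h.1]
        simp only [dd, Function.update_idem, f', E']
        ring
    have hexp : ∀ b c : Bool, ex E' (fun ω => (f' b ω - f' c ω) * (g' true ω - g' false ω)) s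
        = ex E' (fun ω => f' b ω * g' true ω) s - ex E' (fun ω => f' c ω * g' true ω) s
          - ex E' (fun ω => f' b ω * g' false ω) s + ex E' (fun ω => f' c ω * g' false ω) s := by
      intro b c
      rw [← ex_sub, ← ex_sub, ← ex_add]
      exact congrArg (fun F => ex E' F s) (funext fun ω => by ring)
    rw [hexp] at hpiv
    have hmix : ∀ b : Bool, ex E' (fun ω => fm ω * g' b ω) s
        = s * ex E' (fun ω => f' true ω * g' b ω) s
          + (1 - s) * ex E' (fun ω => f' false ω * g' b ω) s := by
      intro b
      rw [← ex_mul_left, ← ex_mul_left, ← ex_add]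
      exact congrArg (fun F => ex E' F s) (funext fun ω => by simp only [fm]; ring)
    have hfg : ex E (fun ω => f ω * g ω) s = s * ex E' (fun ω => f' true ω * g' true ω) s
        + (1 - s) * ex E' (fun ω => f' false ω * g' false ω) s := ex_insert' h.1 _ _
    have hge : ex E g s = s * ex E' (g' true) s + (1 - s) * ex E' (g' false) s := ex_insert' h.1 _ _
    rw [hmix] at It Iu
    rw [hsum, hfg, hge, ← hefm]
    have ht := mul_le_mul_of_nonneg_left It h0
    have hu := mul_le_mul_of_nonneg_left Iu (by linarith : (0 : ℝ) ≤ 1 - s)
    have hp := mul_le_mul_of_nonneg_left hpiv (mul_nonneg h0 (by linarith : (0 : ℝ) ≤ 1 - s))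
    nlinarith [ht, hu, hp]

/-- The explored sum is centred, with second moment proportional to the number of queries. -/
theorem cz_moments (s : ℝ) : ∀ (T : DT α) {E : Finset α}, Wf T E →
    ex E (cz T s) s = 0 ∧ ex E (fun ω => cz T s ω ^ 2) s
      = s * (1 - s) * ex E (fun ω => ((queried T ω).card : ℝ)) s := by
  intro T
  induction T with
  | leaf =>
    intro E _
    simp [cz, queried, ex_const, show cz (DT.leaf : DT α) s = fun _ => (0 : ℝ) from
      funext fun ω => by simp [cz, queried]]
  | node a t u iht ihu =>
    intro E h
    obtain ⟨t1, t2⟩ := iht h.2.1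
    obtain ⟨u1, u2⟩ := ihu h.2.2
    have ha : ∀ (b : Bool) (ω : α → Bool), a ∉ (if b then queried t ω else queried u ω) := fun b ω hm => by
      cases b <;> simp at hm
      · exact notMem_erase a E (h.2.2.subset ω hm)
      · exact notMem_erase a E (h.2.1.subset ω hm)
    have key : ∀ (b : Bool) (ω : α → Bool), cz (.node a t u) s (update ω a b)
        = ((if b then 1 else 0) - s) + cz (if b then t else u) s ω := by
      intro b ω
      rw [cz, queried_node h, sum_insert (ha b ω)]
      congr 1
      · simp [cen]
      · rw [cz]
        cases b <;>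
          exact sum_congr rfl fun c hc => by
            have hne : c ≠ a := by
              rintro rfl
              first
                | exact ha true ω hc
                | exact ha false ω hc
            simp [cen, Function.update_of_ne hne]
    have hcard : ∀ (b : Bool) (ω : α → Bool), (((queried (.node a t u) (update ω a b)).card : ℕ) : ℝ)
        = 1 + ((queried (if b then t else u) ω).card : ℝ) := by
      intro b ω
      rw [queried_node h, card_insert_of_notMem (ha b ω)]
      cases b <;> simp [add_comm]
    refine ⟨?_, ?_⟩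
    · rw [ex_insert' h.1]
      simp only [key, ex_add, ex_const, if_true, Bool.false_eq_true, if_false, t1, u1]
      ring
    · rw [ex_insert' h.1, ex_insert' h.1]
      simp only [key, hcard, if_true, Bool.false_eq_true, if_false]
      rw [show (fun ω => (1 - s + cz t s ω) ^ 2)
          = fun ω => (1 - s) ^ 2 + (2 * (1 - s) * cz t s ω + cz t s ω ^ 2) from
          funext fun ω => by ring,
        show (fun ω => (0 - s + cz u s ω) ^ 2)
          = fun ω => s ^ 2 + (-(2 * s) * cz u s ω + cz u s ω ^ 2) from funext fun ω => by ring]
      simp only [ex_add, ex_const, ex_mul_left, t1, u1, t2, u2]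
      ring

/-- A function computed with few queries depends little on the density. -/
theorem computes_lipschitz {s r : ℝ} (hs : 0 ≤ s) (hs1 : s ≤ 1) (hr : 0 ≤ r) (hr1 : r ≤ 1) :
    ∀ (T : DT α) {E : Finset α}, Wf T E → ∀ {g : (α → Bool) → ℝ}, (∀ ω, 0 ≤ g ω) →
      (∀ ω, g ω ≤ 1) → Computes T g → ∀ {N : ℕ}, (∀ ω, (queried T ω).card ≤ N) →
      |ex E g s - ex E g r| ≤ N * |s - r| := by
  intro T
  induction T with
  | leaf =>
    intro E _ g _ _ hg N _
    rw [show g = fun _ => g fun _ => false from funext fun ω => hg _ _ (by simp [queried]),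
      ex_const, ex_const, sub_self, abs_zero]
    positivity
  | node a t u iht ihu =>
    intro E h g hg0 hg1 hg N hN
    obtain ⟨N, rfl⟩ : ∃ M, N = M + 1 := ⟨N - 1, by
      have h' := hN fun _ => true
      have : 1 ≤ (queried (.node a t u) fun _ => true).card :=
        card_pos.2 ⟨a, mem_insert_self _ _⟩
      omega⟩
    have hb : ∀ (b : Bool) (ω : α → Bool), (queried (if b then t else u) ω).card ≤ N := by
      intro b ω
      have h' := hN (update ω a b)
      rw [queried_node h, card_insert_of_notMem] at h'
      · cases b <;> simpa using h'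
      · intro hm
        cases b <;> simp at hm
        · exact notMem_erase a E (h.2.2.subset ω hm)
        · exact notMem_erase a E (h.2.1.subset ω hm)
    have ht := iht (E := E.erase a) h.2.1 (fun ω => hg0 _) (fun ω => hg1 _) (hg.child h true)
      (hb true)
    have hu := ihu (E := E.erase a) h.2.2 (fun ω => hg0 _) (fun ω => hg1 _) (hg.child h false)
      (hb false)
    rw [ex_insert' h.1 g s, ex_insert' h.1 g r]
    set A := ex (E.erase a) (fun ω => g (update ω a true))
    set B := ex (E.erase a) (fun ω => g (update ω a false))
    have hA : |A r - B r| ≤ 1 := by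
      have a0 : 0 ≤ A r := ex_nonneg (fun ω => hg0 _) hr hr1
      have b0 : 0 ≤ B r := ex_nonneg (fun ω => hg0 _) hr hr1
      have a1 : A r ≤ 1 := (ex_mono (g := fun _ => (1 : ℝ)) (fun ω => hg1 _) hr hr1).trans_eq
        (ex_one _ _)
      have b1 : B r ≤ 1 := (ex_mono (g := fun _ => (1 : ℝ)) (fun ω => hg1 _) hr hr1).trans_eq
        (ex_one _ _)
      rw [abs_sub_le_iff]; constructor <;> linarith
    calc |s * A s + (1 - s) * B s - (r * A r + (1 - r) * B r)|
        = |s * (A s - A r) + (1 - s) * (B s - B r) + (s - r) * (A r - B r)| := by ring_nf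
      _ ≤ |s * (A s - A r)| + |(1 - s) * (B s - B r)| + |(s - r) * (A r - B r)| := abs_add_three _ _ _
      _ ≤ s * (N * |s - r|) + (1 - s) * (N * |s - r|) + |s - r| * 1 := by
          rw [abs_mul, abs_mul, abs_mul, abs_of_nonneg hs, abs_of_nonneg (by linarith : 0 ≤ 1 - s)]
          gcongr
      _ = ((N + 1 : ℕ) : ℝ) * |s - r| := by push_cast; ring

lemma ex_congr {E : Finset α} {f g : (α → Bool) → ℝ} (h : ∀ U ⊆ E, f (conf U) = g (conf U))
    (s : ℝ) : ex E f s = ex E g s :=
  sum_congr rfl fun U hU => by rw [h U (mem_powerset.1 hU)]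

/-- Coordinates not seen by `f` may be added. -/
lemma ex_subset {E F : Finset α} (h : E ⊆ F) {f : (α → Bool) → ℝ}
    (hf : ∀ ω ω', (∀ a ∈ E, ω a = ω' a) → f ω = f ω') (s : ℝ) : ex F f s = ex E f s := by
  suffices ∀ D : Finset α, Disjoint D E → ex (D ∪ E) f s = ex E f s by
    have h' := this (F \ E) sdiff_disjoint
    rwa [sdiff_union_of_subset h] at h'
  intro D
  induction D using Finset.induction_on with
  | empty => simp
  | @insert a D ha ih =>
    intro hd
    have haE : a ∉ E := disjoint_left.1 hd (mem_insert_self a D)
    rw [insert_union, ex_insert (by simp [ha, haE])]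
    have : ∀ b, (fun ω => f (update ω a b)) = f := fun b => funext fun ω =>
      hf _ _ fun c hc => Function.update_of_ne (fun e => haE (by rw [← e]; exact hc)) _ _
    rw [this, this, ih (hd.mono_left (subset_insert a D))]
    ring

/-- Harris' inequality. -/
theorem harris {s : ℝ} (h0 : 0 ≤ s) (h1 : s ≤ 1) : ∀ (E : Finset α) {f g : (α → Bool) → ℝ},
    Mono f → Mono g → ex E f s * ex E g s ≤ ex E (fun ω => f ω * g ω) s := by
  intro E
  induction E using Finset.induction_on with
  | empty => intro f g _ _; simp [ex_empty]
  | @insert a E ha ih =>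
    intro f g hf hg
    rw [ex_insert ha, ex_insert ha, ex_insert ha]
    have ht := mul_le_mul_of_nonneg_left (ih (hf.comp a true) (hg.comp a true)) h0
    have hu := mul_le_mul_of_nonneg_left (ih (hf.comp a false) (hg.comp a false))
      (by linarith : (0 : ℝ) ≤ 1 - s)
    have df : ex E (fun ω => f (update ω a false)) s ≤ ex E (fun ω => f (update ω a true)) s :=
      ex_mono (fun ω => hf ω a) h0 h1
    have dg : ex E (fun ω => g (update ω a false)) s ≤ ex E (fun ω => g (update ω a true)) s :=
      ex_mono (fun ω => hg ω a) h0 h1
    nlinarith [ht, hu, mul_nonneg (mul_nonneg h0 (by linarith : (0 : ℝ) ≤ 1 - s))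
      (mul_nonneg (sub_nonneg.2 df) (sub_nonneg.2 dg))]

end Vale.Agent.P151.Growth
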