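import Mathlib
import Vale.Agent.P151.Growth.Tree
import Vale.Agent.P165.Product.Local

/-!
The exploration of the open clusters of a finite seed set inside a finite edge set.
-/

namespace Vale.Agent.P151.Growth

open Finset
open Vale.Agent.P165 (openGraph)
open Vale.Agent.P165.Product (edgesAt)
open Classical

variable {W : Type} [DecidableEq W]

/-- The edge has an endpoint in the set. -/
def Touch (A : Finset W) (e : Sym2 W) : Prop := ∃ v ∈ A, v ∈ e

/-- The exploration tree with a bounded number of queries. -/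
noncomputable def tree : ℕ → Finset (Sym2 W) → Finset W → DT (Sym2 W)
  | 0, _, _ => .leaf
  | k + 1, E, A =>
    if h : ∃ e ∈ E, Touch A e then
      .node h.choose (tree k (E.erase h.choose) (A ∪ h.choose.toFinset))
        (tree k (E.erase h.choose) A)
    else .leaf

/-- The vertices found by the exploration. -/
noncomputable def fnd : ℕ → Finset (Sym2 W) → Finset W → (Sym2 W → Bool) → Finset W
  | 0, _, A, _ => A
  | k + 1, E, A, ω =>
    if h : ∃ e ∈ E, Touch A e then
      if ω h.choose then fnd k (E.erase h.choose) (A ∪ h.choose.toFinset) ω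
      else fnd k (E.erase h.choose) A ω
    else A

lemma tree_wf : ∀ (k : ℕ) (E : Finset (Sym2 W)) (A : Finset W), Wf (tree k E A) E
  | 0, _, _ => trivial
  | k + 1, E, A => by
    rw [tree]
    split_ifs with h
    · exact ⟨h.choose_spec.1, tree_wf k _ _, tree_wf k _ _⟩
    · trivial

lemma subset_fnd : ∀ (k : ℕ) (E : Finset (Sym2 W)) (A : Finset W) (ω : Sym2 W → Bool),
    A ⊆ fnd k E A ω
  | 0, _, _, _ => subset_rfl
  | k + 1, E, A, ω => by
    rw [fnd]
    split_ifs
    · exact subset_union_left.trans (subset_fnd k _ _ ω)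
    · exact subset_fnd k _ _ ω
    · exact subset_rfl

lemma card_queried_le : ∀ (k : ℕ) (E : Finset (Sym2 W)) (A : Finset W) (ω : Sym2 W → Bool),
    (queried (tree k E A) ω).card ≤ k
  | 0, _, _, _ => by simp [tree, queried]
  | k + 1, E, A, ω => by
    rw [tree]
    split_ifs
    · refine (card_insert_le _ _).trans (Nat.succ_le_succ ?_)
      split_ifs <;> exact card_queried_le k _ _ ω
    · simp [queried]

/-- What the exploration finds is determined by what it queries. -/
lemma fnd_congr : ∀ (k : ℕ) (E : Finset (Sym2 W)) (A : Finset W) (ω η : Sym2 W → Bool),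
    (∀ e ∈ queried (tree k E A) ω, ω e = η e) →
      fnd k E A ω = fnd k E A η ∧ queried (tree k E A) ω = queried (tree k E A) η
  | 0, _, _, _, _ => fun _ => ⟨rfl, rfl⟩
  | k + 1, E, A, ω, η => by
    rw [fnd, fnd, tree]
    split_ifs with h
    all_goals intro he
    all_goals first
      | exact ⟨rfl, rfl⟩
      | skip
    all_goals
      have ha : ω h.choose = η h.choose := he _ (mem_insert_self _ _)
    all_goals simp_all [queried]
    · obtain ⟨a, b⟩ := fnd_congr k (E.erase h.choose) (A ∪ h.choose.toFinset) ω η he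
      exact ⟨a, congrArg _ b⟩
    · obtain ⟨a, b⟩ := fnd_congr k (E.erase h.choose) A ω η he
      exact ⟨a, congrArg _ b⟩

lemma touch_of_queried : ∀ (k : ℕ) (E : Finset (Sym2 W)) (A : Finset W) (ω : Sym2 W → Bool),
    ∀ e ∈ queried (tree k E A) ω, Touch (fnd k E A ω) e ∧ e ∈ E ∧
      (ω e = true → ∀ v ∈ e, v ∈ fnd k E A ω)
  | 0, _, _, _ => by simp [tree, queried]
  | k + 1, E, A, ω => by
    rw [tree, fnd]
    split_ifs with h hω
    · intro e he
      simp only [queried, hω, if_true, mem_insert] at he
      rcases he with rfl | he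
      · obtain ⟨v, hv, hve⟩ := h.choose_spec.2
        exact ⟨⟨v, subset_fnd k _ _ ω (mem_union_left _ hv), hve⟩, h.choose_spec.1,
          fun _ w hw => subset_fnd k _ _ ω (mem_union_right _ (Sym2.mem_toFinset.2 hw))⟩
      · obtain ⟨t, m, o⟩ := touch_of_queried k _ _ ω e he
        exact ⟨t, mem_of_mem_erase m, o⟩
    · intro e he
      simp only [queried, hω, Bool.false_eq_true, if_false, mem_insert] at he
      rcases he with rfl | he
      · obtain ⟨v, hv, hve⟩ := h.choose_spec.2
        exact ⟨⟨v, subset_fnd k _ _ ω hv, hve⟩, h.choose_spec.1, fun h' => absurd h' hω⟩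
      · obtain ⟨t, m, o⟩ := touch_of_queried k _ _ ω e he
        exact ⟨t, mem_of_mem_erase m, o⟩
    · simp [queried]

/-- If the budget is not used up, every edge of `E` at a found vertex is queried. -/
lemma queried_of_touch : ∀ (k : ℕ) (E : Finset (Sym2 W)) (A : Finset W) (ω : Sym2 W → Bool),
    (queried (tree k E A) ω).card < k → ∀ e ∈ E, Touch (fnd k E A ω) e →
      e ∈ queried (tree k E A) ω
  | 0, _, _, _ => fun h => absurd h (Nat.not_lt_zero _)
  | k + 1, E, A, ω => by
    rw [tree, fnd]
    split_ifs with h hω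
    · simp only [queried, hω, if_true]
      intro hc e he ht
      rcases eq_or_ne e h.choose with rfl | hne
      · exact mem_insert_self _ _
      · refine mem_insert_of_mem (queried_of_touch k _ _ ω ?_ e (mem_erase.2 ⟨hne, he⟩) ht)
        rw [card_insert_of_notMem fun hm =>
          notMem_erase h.choose E ((tree_wf k _ _).subset ω hm)] at hc
        omega
    · simp only [queried, hω, Bool.false_eq_true, if_false]
      intro hc e he ht
      rcases eq_or_ne e h.choose with rfl | hne
      · exact mem_insert_self _ _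
      · refine mem_insert_of_mem (queried_of_touch k _ _ ω ?_ e (mem_erase.2 ⟨hne, he⟩) ht)
        rw [card_insert_of_notMem fun hm =>
          notMem_erase h.choose E ((tree_wf k _ _).subset ω hm)] at hc
        omega
    · intro _ e he ht
      exact absurd ⟨e, he, ht⟩ h

variable {H : SimpleGraph W}

lemma reach_of_fnd : ∀ (k : ℕ) (E : Finset (Sym2 W)) (A : Finset W) (ω : Sym2 W → Bool),
    (∀ e ∈ E, e ∈ H.edgeSet) → ∀ v ∈ fnd k E A ω, ∃ a ∈ A, (openGraph H ω).Reachable a v
  | 0, _, A, _ => fun _ v hv => ⟨v, hv, SimpleGraph.Reachable.refl _⟩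
  | k + 1, E, A, ω => by
    rw [fnd]
    split_ifs with h hω
    · intro hE v hv
      obtain ⟨a, ha, hr⟩ := reach_of_fnd k _ _ ω (fun e he => hE e (mem_of_mem_erase he)) v hv
      rcases mem_union.1 ha with ha | ha
      · exact ⟨a, ha, hr⟩
      · obtain ⟨u, hu, hue⟩ := h.choose_spec.2
        refine ⟨u, hu, SimpleGraph.Reachable.trans ?_ hr⟩
        rcases eq_or_ne u a with rfl | hne
        · exact SimpleGraph.Reachable.refl _
        · have he : h.choose = s(u, a) :=
            (Sym2.mem_and_mem_iff hne).1 ⟨hue, Sym2.mem_toFinset.1 ha⟩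
          have hadj := hE _ h.choose_spec.1
          rw [he] at hadj hω
          exact SimpleGraph.Adj.reachable (G := openGraph H ω) ⟨hadj, hω⟩
    · exact fun hE => reach_of_fnd k _ _ ω fun e he => hE e (mem_of_mem_erase he)
    · exact fun _ v hv => ⟨v, hv, SimpleGraph.Reachable.refl _⟩

/-- An exploration which does not use up its budget finds whole clusters. -/
lemma fnd_of_reach {k : ℕ} {E : Finset (Sym2 W)} {A : Finset W} {ω : Sym2 W → Bool}
    (hc : (queried (tree k E A) ω).card < k)
    (hE : ∀ v ∈ fnd k E A ω, ∀ w, H.Adj v w → ω s(v, w) = true → s(v, w) ∈ E) {a v : W}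
    (ha : a ∈ A) (h : (openGraph H ω).Reachable a v) : v ∈ fnd k E A ω := by
  obtain ⟨q⟩ := h
  suffices ∀ {b d : W}, (openGraph H ω).Walk b d → b ∈ fnd k E A ω → d ∈ fnd k E A ω from
    this q (subset_fnd k E A ω ha)
  clear ha q
  intro b d q
  induction q with
  | nil => exact id
  | @cons b c d hadj q ih =>
    intro hb
    refine ih ?_
    have hm := hE b hb c hadj.1 hadj.2
    exact (touch_of_queried k E A ω _
      (queried_of_touch k E A ω hc _ hm ⟨b, hb, Sym2.mem_mk_left b c⟩)).2.2 hadj.2 c
      (Sym2.mem_mk_right b c)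

lemma fnd_invariant {P : Finset W → Prop}
    (hP : ∀ B (u w : W), P B → u ∈ B → H.Adj u w → P (insert w B)) :
    ∀ (k : ℕ) (E : Finset (Sym2 W)) (A : Finset W) (ω : Sym2 W → Bool),
      (∀ e ∈ E, e ∈ H.edgeSet) → P A → P (fnd k E A ω)
  | 0, _, _, _ => fun _ hA => hA
  | k + 1, E, A, ω => by
    rw [fnd]
    split_ifs with h hω
    · intro hE hA
      refine fnd_invariant hP k _ _ ω (fun e he => hE e (mem_of_mem_erase he)) ?_
      obtain ⟨u, hu, hue⟩ := h.choose_spec.2
      obtain ⟨w, hw⟩ := Sym2.mem_iff_exists.1 hue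
      have hadj := hE _ h.choose_spec.1
      rw [hw] at hadj
      have : A ∪ h.choose.toFinset = insert w A := by
        rw [hw, Sym2.toFinset_mk_eq]
        ext z; simp only [mem_union, mem_insert, mem_singleton]; aesop
      rw [this]
      exact hP A u w hA hu hadj
    · exact fun hE hA => fnd_invariant hP k _ _ ω (fun e he => hE e (mem_of_mem_erase he)) hA
    · exact fun _ hA => hA

lemma queried_subset_edgesAt [H.LocallyFinite] {k : ℕ} {E : Finset (Sym2 W)} {A : Finset W}
    (hE : ∀ e ∈ E, e ∈ H.edgeSet) (ω : Sym2 W → Bool) :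
    queried (tree k E A) ω ⊆ edgesAt H (fnd k E A ω) := by
  intro e he
  obtain ⟨⟨v, hv, hve⟩, hm, -⟩ := touch_of_queried k E A ω e he
  obtain ⟨w, rfl⟩ := Sym2.mem_iff_exists.1 hve
  exact Vale.Agent.P165.Product.mem_edgesAt hv (hE _ hm)

end Vale.Agent.P151.Growth
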