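import Mathlib
import Vale.Agent.P151.Cayley
import Vale.Agent.P151.Growth.Explore
import Vale.Agent.P165.Product.Sprinkle

/-!
Clusters of a Cayley graph: the events that a cluster is large, their locality, translation
invariance, and their expression as finite expectations.
-/

namespace Vale.Agent.P151.Growth

open MeasureTheory Finset Critical
open Vale.Agent.P165 (perc openGraph Dep pc toInf)
open Vale.Agent.P165.Product (edgesAt mem_edgesAt)
open Vale.Agent.P151.Return (wball)
open Classical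
open Function (update)

variable {Γ : Type} [Group Γ] {S : Finset Γ}

/-- The open cluster. -/
def cl (S : Finset Γ) (ω : Sym2 Γ → Bool) (x : Γ) : Set Γ :=
  {y | (openGraph (cg S) ω).Reachable x y}

/-- The cluster of `x` has at least `n` vertices. -/
def big (S : Finset Γ) (n : ℕ) (x : Γ) : Set (Sym2 Γ → Bool) :=
  {ω | (n : ℕ∞) ≤ (cl S ω x).encard}

/-- The vertices within distance `R` of `x`. -/
noncomputable def ballAt (S : Finset Γ) (R : ℕ) (x : Γ) : Finset Γ :=
  (wball S R).image (x * ·)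

/-- The edges at the ball. -/
noncomputable def edg (S : Finset Γ) (R : ℕ) (x : Γ) : Finset (Sym2 Γ) :=
  edgesAt (cg S) (ballAt S R x)

/-- The probability of a cluster with at least `n` vertices. -/
noncomputable def aN (S : Finset Γ) (n : ℕ) (p : unitInterval) : ℝ :=
  (perc Γ p).real (big S n 1)

lemma self_mem_ballAt (R : ℕ) (x : Γ) : x ∈ ballAt S R x :=
  mem_image.2 ⟨1, Return.one_mem_wball S R, mul_one x⟩

lemma ballAt_mono {R R' : ℕ} (h : R ≤ R') (x : Γ) : ballAt S R x ⊆ ballAt S R' x :=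
  image_subset_image (Return.wball_mono S h)

lemma edg_mono {R R' : ℕ} (h : R ≤ R') (x : Γ) : edg S R x ⊆ edg S R' x :=
  biUnion_subset_biUnion_of_subset_left _ (ballAt_mono h x)

lemma adj_mem_ballAt (hS : Gen S) {R : ℕ} {x u w : Γ} (hu : u ∈ ballAt S R x)
    (h : (cg S).Adj u w) : w ∈ ballAt S (R + 1) x := by
  obtain ⟨v, hv, rfl⟩ := mem_image.1 hu
  refine mem_image.2 ⟨v * ((x * v)⁻¹ * w), ?_, by group⟩
  exact Return.mul_mem_wball S hv (Return.mem_wball_one (hS.adj_iff.1 h))

lemma edg_subset_edgeSet (R : ℕ) (x : Γ) : ∀ e ∈ edg S R x, e ∈ (cg S).edgeSet := by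
  intro e he
  obtain ⟨u, -, hu⟩ := mem_biUnion.1 he
  obtain ⟨w, hw, rfl⟩ := mem_image.1 hu
  exact ((cg S).mem_neighborFinset u w).1 hw

lemma card_edgesAt_le (hS : Gen S) (B : Finset Γ) :
    (edgesAt (cg S) B).card ≤ S.card * B.card := by
  rw [Nat.mul_comm]
  refine card_biUnion_le_card_mul B _ _ fun x _ => card_image_le.trans ?_
  refine (card_le_card (t := S.image (x * ·)) fun w hw => mem_image.2 ⟨x⁻¹ * w, ?_, by group⟩).trans
    card_image_le
  exact hS.adj_iff.1 (((cg S).mem_neighborFinset x w).1 hw)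

lemma cl_mono {ω η : Sym2 Γ → Bool} (h : ∀ e, ω e = true → η e = true) (x : Γ) :
    cl S ω x ⊆ cl S η x := fun _ hy =>
  SimpleGraph.Reachable.mono (G := openGraph (cg S) ω) (G' := openGraph (cg S) η)
    (fun _ _ hab => ⟨hab.1, h _ hab.2⟩) hy

lemma big_mono {n : ℕ} {x : Γ} {ω η : Sym2 Γ → Bool} (h : ∀ e, ω e = true → η e = true)
    (hω : ω ∈ big S n x) : η ∈ big S n x :=
  le_trans (α := ℕ∞) hω (Set.encard_le_encard (cl_mono h x))

lemma big_anti {m n : ℕ} (h : m ≤ n) (x : Γ) : big S n x ⊆ big S m x := fun _ hω =>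
  le_trans (α := ℕ∞) (Nat.cast_le.2 h) hω

lemma mono_indicator {A : Set (Sym2 Γ → Bool)}
    (hA : ∀ ω η : Sym2 Γ → Bool, (∀ e, ω e = true → η e = true) → ω ∈ A → η ∈ A) :
    Mono (A.indicator (1 : (Sym2 Γ → Bool) → ℝ)) := by
  intro ω a
  by_cases h : update ω a false ∈ A
  · rw [Set.indicator_of_mem h, Set.indicator_of_mem (hA _ _ (fun e he => ?_) h)]
    · rfl
    · rcases eq_or_ne e a with rfl | hne
      · simp at he
      · simpa [Function.update_of_ne hne] using he
  · rw [Set.indicator_of_notMem h]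
    exact Set.indicator_nonneg (fun _ _ => zero_le_one) _

lemma cl_eq_of_reach {ω : Sym2 Γ → Bool} {x y : Γ} (h : y ∈ cl S ω x) :
    cl S ω y = cl S ω x := by
  ext z
  exact ⟨fun hz => SimpleGraph.Reachable.trans h hz, fun hz =>
    SimpleGraph.Reachable.trans (SimpleGraph.Reachable.symm h) hz⟩

/-- The cluster seen by an exploration from one vertex. -/
lemma fnd_subset_cl {k : ℕ} {E : Finset (Sym2 Γ)} {x : Γ} {ω : Sym2 Γ → Bool}
    (hE : ∀ e ∈ E, e ∈ (cg S).edgeSet) : (fnd k E {x} ω : Set Γ) ⊆ cl S ω x := by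
  intro v hv
  obtain ⟨a, ha, hr⟩ := reach_of_fnd k E {x} ω hE v hv
  rw [mem_singleton.1 ha] at hr
  exact hr

lemma fnd_subset_ballAt (hS : Gen S) {k : ℕ} {E : Finset (Sym2 Γ)} {x : Γ} {ω : Sym2 Γ → Bool}
    (hE : ∀ e ∈ E, e ∈ (cg S).edgeSet) :
    fnd k E {x} ω ⊆ ballAt S ((fnd k E {x} ω).card - 1) x := by
  refine fnd_invariant (H := cg S) (P := fun B => B.Nonempty ∧ B ⊆ ballAt S (B.card - 1) x)
    (fun B u w hB hu h => ?_) k E {x} ω hE
    ⟨singleton_nonempty x, fun v hv => by rw [mem_singleton.1 hv]; exact self_mem_ballAt _ x⟩ |>.2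
  refine ⟨insert_nonempty w B, ?_⟩
  by_cases hw : w ∈ B
  · rw [insert_eq_of_mem hw]; exact hB.2
  · have hc : 1 ≤ B.card := card_pos.2 ⟨u, hu⟩
    rw [card_insert_of_notMem hw]
    refine insert_subset ?_ (hB.2.trans (ballAt_mono (by omega) x))
    rw [show B.card + 1 - 1 = B.card - 1 + 1 by omega]
    exact adj_mem_ballAt hS (hB.2 hu) h

/-- With budget `S.card * n + 1` the exploration decides whether the cluster has `n` vertices;
when it has fewer, it finds all of it. -/
lemma fnd_small (hS : Gen S) {R n k : ℕ} {x : Γ} {ω : Sym2 Γ → Bool} (hn : n ≤ R + 1)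
    (hk : S.card * n < k) (hc : (fnd k (edg S R x) {x} ω).card ≤ n) :
    (fnd k (edg S R x) {x} ω : Set Γ) = cl S ω x := by
  have hsub := edg_subset_edgeSet (S := S) R x
  refine (fnd_subset_cl hsub).antisymm fun v hv => ?_
  refine fnd_of_reach (H := cg S) ?_ (fun u hu w hw _ => ?_) (mem_singleton_self x) hv
  · refine lt_of_le_of_lt ?_ hk
    exact ((card_le_card (queried_subset_edgesAt hsub ω)).trans (card_edgesAt_le hS _)).trans
      (Nat.mul_le_mul_left _ hc)
  · exact mem_edgesAt (ballAt_mono (by omega) x (fnd_subset_ballAt hS hsub hu)) hw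

lemma big_iff_fnd (hS : Gen S) {R n k : ℕ} {x : Γ} {ω : Sym2 Γ → Bool} (hn : n ≤ R + 1)
    (hk : S.card * n < k) : ω ∈ big S n x ↔ n ≤ (fnd k (edg S R x) {x} ω).card := by
  constructor
  · intro h
    by_contra hlt
    have hlt := not_le.1 hlt
    have h' : (n : ℕ∞) ≤ (cl S ω x).encard := h
    rw [← fnd_small hS hn hk hlt.le, Set.encard_coe_eq_coe_finsetCard, Nat.cast_le] at h'
    omega
  · intro h
    refine le_trans (α := ℕ∞) (Nat.cast_le.2 h) ?_
    rw [← Set.encard_coe_eq_coe_finsetCard]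
    exact Set.encard_le_encard (fnd_subset_cl (edg_subset_edgeSet R x))

lemma computes_big (hS : Gen S) {R n k : ℕ} {x : Γ} (hn : n ≤ R + 1) (hk : S.card * n < k) :
    Computes (tree k (edg S R x) {x}) ((big S n x).indicator 1) := by
  intro ω η he
  have : ω ∈ big S n x ↔ η ∈ big S n x := by
    rw [big_iff_fnd hS hn hk, big_iff_fnd hS hn hk, (fnd_congr k _ _ ω η he).1]
  simp only [Set.indicator_apply, this, Pi.one_apply]

lemma dep_big (hS : Gen S) {R n : ℕ} (x : Γ) (hn : n ≤ R + 1) :
    Dep (big S n x) (edg S R x) := by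
  intro ω η he h
  have hk : S.card * n < S.card * n + 1 := Nat.lt_succ_self _
  rw [big_iff_fnd hS hn hk] at h ⊢
  rwa [← (fnd_congr _ _ _ ω η fun e hm => he e ((tree_wf _ _ _).subset ω hm)).1]

/-- A cluster with at most `N` vertices stays in the ball and is found by the exploration. -/
lemma fnd_of_small (hS : Gen S) {R N k : ℕ} {x : Γ} {ω : Sym2 Γ → Bool} (hN : N ≤ R + 1)
    (hk : S.card * N < k) (h : (cl S ω x).encard ≤ (N : ℕ∞)) :
    (fnd k (edg S R x) {x} ω : Set Γ) = cl S ω x ∧
      cl S ω x ⊆ ballAt S (N - 1) x := by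
  have hc : (fnd k (edg S R x) {x} ω).card ≤ N := by
    have := (Set.encard_le_encard (fnd_subset_cl (k := k) (ω := ω)
      (edg_subset_edgeSet (S := S) R x))).trans h
    rwa [Set.encard_coe_eq_coe_finsetCard, Nat.cast_le] at this
  have he := fnd_small hS hN hk hc
  refine ⟨he, ?_⟩
  rw [← he, coe_subset]
  exact (fnd_subset_ballAt hS (edg_subset_edgeSet R x)).trans (ballAt_mono (by omega) x)

/-- Equality of clusters through agreement on a ball. -/
lemma cl_congr (hS : Gen S) {R N : ℕ} {x : Γ} {ω η : Sym2 Γ → Bool} (hN : N ≤ R)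
    (h : (cl S ω x).encard ≤ (N : ℕ∞)) (he : ∀ e ∈ edg S R x, ω e = η e) :
    cl S η x = cl S ω x := by
  have hk : S.card * (N + 1) < S.card * (N + 1) + 1 := Nat.lt_succ_self _
  have hk' : S.card * N < S.card * (N + 1) + 1 := by nlinarith
  have h1 := (fnd_of_small hS (R := R) (by omega) hk' h).1
  have hf := (fnd_congr (S.card * (N + 1) + 1) (edg S R x) {x} ω η fun e hm =>
    he e ((tree_wf _ _ _).subset ω hm)).1
  have hη : η ∉ big S (N + 1) x := by
    rw [big_iff_fnd hS (R := R) (by omega) hk, ← hf]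
    intro hle
    rw [← h1, Set.encard_coe_eq_coe_finsetCard, Nat.cast_le] at h
    omega
  have hη' : (cl S η x).encard ≤ (N : ℕ∞) := by
    have : (cl S η x).encard < ((N + 1 : ℕ) : ℕ∞) := not_le.1 hη
    exact Order.le_of_lt_succ (by simpa [Order.succ_eq_add_one] using this)
  rw [← (fnd_of_small hS (R := R) (by omega) hk' hη').1, ← h1, hf]

lemma aN_eq_ex (hS : Gen S) {R n : ℕ} (hn : n ≤ R + 1) (p : unitInterval) :
    aN S n p = ex (edg S R 1) ((big S n 1).indicator 1) p :=
  real_eq_ex (dep_big hS 1 hn)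

lemma real_big [Countable Γ] (hS : Gen S) (n : ℕ) (x : Γ) (p : unitInterval) :
    (perc Γ p).real (big S n x) = aN S n p := by
  rw [aN]
  conv_rhs => rw [← Vale.Agent.P165.perc_map (shift S x).toEquiv]
  rw [map_measureReal_apply (measurable_pi_lambda _ fun e => measurable_pi_apply _)
    (dep_big (R := n) hS 1 (by omega)).measurableSet]
  congr 1
  ext ω
  simp only [Set.mem_preimage, big, Set.mem_ofPred_eq]
  have h : cl S ω x = (shift S x) '' cl S (fun e => ω (Sym2.map (shift S x).toEquiv e)) 1 := by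
    ext y
    simp only [Set.mem_image, cl, Set.mem_ofPred_eq]
    constructor
    · intro hy
      refine ⟨(shift S x).symm y, (Vale.Agent.P165.openGraph_map_iso (shift S x) ω _ _).2 ?_,
        (shift S x).apply_symm_apply y⟩
      rwa [show shift S x 1 = x from mul_one x, (shift S x).apply_symm_apply]
    · rintro ⟨z, hz, rfl⟩
      have := (Vale.Agent.P165.openGraph_map_iso (shift S x) ω 1 z).1 hz
      rwa [show shift S x 1 = x from mul_one x] at this
  rw [h, (shift S x).injective.injOn.encard_image]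

lemma aN_mono (hS : Gen S) (n : ℕ) {p q : unitInterval} (h : (p : ℝ) ≤ q) :
    aN S n p ≤ aN S n q :=
  Vale.Agent.P165.Product.real_mono (dep_big (R := n) hS 1 (by omega)).measurableSet
    (fun _ _ he hω => big_mono he hω) h

lemma aN_anti {m n : ℕ} (h : m ≤ n) (p : unitInterval) : aN S n p ≤ aN S m p :=
  measureReal_mono (big_anti h 1)

lemma aN_le_one (n : ℕ) (p : unitInterval) : aN S n p ≤ 1 := measureReal_le_one

lemma aN_nonneg (n : ℕ) (p : unitInterval) : 0 ≤ aN S n p := measureReal_nonneg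

/-- The finite-size probability depends little on the density. -/
lemma aN_lipschitz (hS : Gen S) (n : ℕ) (p q : unitInterval) :
    |aN S n p - aN S n q| ≤ ((S.card : ℝ) * n + 1) * |(p : ℝ) - q| := by
  rw [aN_eq_ex hS (R := n) (by omega), aN_eq_ex hS (R := n) (by omega)]
  have h := computes_lipschitz p.2.1 p.2.2 q.2.1 q.2.2 (tree (S.card * n + 1) (edg S n 1) {1})
    (tree_wf _ _ _) (g := (big S n 1).indicator 1) (fun ω => Set.indicator_nonneg (by simp) ω)
    (fun ω => Set.indicator_le' (fun _ _ => le_refl _) (fun _ _ => zero_le_one) ω)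
    (computes_big hS (by omega) (Nat.lt_succ_self _)) (card_queried_le _ _ _)
  exact h.trans_eq (by push_cast; ring)

end Vale.Agent.P151.Growth
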