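import Mathlib
import Vale.Agent.P151.Growth.Cluster

/-!
The differential inequality for the probability of a large cluster, and its consequence: a large
cluster which is not too unlikely makes smaller clusters likely at a slightly larger density.
-/

namespace Vale.Agent.P151.Growth

open MeasureTheory Finset Critical
open Vale.Agent.P165 (perc openGraph Dep)
open Vale.Agent.P165.Product (edgesAt mem_edgesAt)
open Classical
open Function (update)

lemma ex_le {α : Type} [DecidableEq α] {E : Finset α} {f g : (α → Bool) → ℝ}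
    (h : ∀ U ⊆ E, f (conf U) ≤ g (conf U)) {s : ℝ} (h0 : 0 ≤ s) (h1 : s ≤ 1) :
    ex E f s ≤ ex E g s :=
  sum_le_sum fun U hU => mul_le_mul_of_nonneg_left (h U (mem_powerset.1 hU)) (wt_nonneg E U h0 h1)

lemma ex_comm {α β : Type} [DecidableEq α] [DecidableEq β] (E : Finset α) (B : Finset β)
    (h : (β → Bool) → (α → Bool) → ℝ) (s l : ℝ) :
    ex B (fun σ => ex E (h σ) s) l = ex E (fun ω => ex B (fun σ => h σ ω) l) s := by
  simp only [ex, mul_sum]
  rw [sum_comm]
  exact sum_congr rfl fun U _ => sum_congr rfl fun V _ => by ring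

lemma ex_all_false {β : Type} [DecidableEq β] (l : ℝ) : ∀ (K : Finset β),
    ex K (fun σ => if ∀ v ∈ K, σ v = false then (1 : ℝ) else 0) l = (1 - l) ^ K.card := by
  intro K
  induction K using Finset.induction_on with
  | empty => simp [ex_empty]
  | @insert a K ha ih =>
    rw [ex_insert ha, card_insert_of_notMem ha, pow_succ]
    have h1 : (fun σ : β → Bool => if ∀ v ∈ insert a K, update σ a true v = false then (1 : ℝ)
        else 0) = fun _ => 0 := funext fun σ => by
      rw [if_neg fun h => by simpa using h a (mem_insert_self a K)]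
    have h2 : (fun σ : β → Bool => if ∀ v ∈ insert a K, update σ a false v = false then (1 : ℝ)
        else 0) = fun σ => if ∀ v ∈ K, σ v = false then (1 : ℝ) else 0 := funext fun σ => by
      refine if_congr ⟨fun h v hv => ?_, fun h v hv => ?_⟩ rfl rfl
      · have := h v (mem_insert_of_mem hv)
        rwa [Function.update_of_ne fun e : v = a => ha (e ▸ hv)] at this
      · rcases eq_or_ne v a with rfl | hne
        · simp
        · rw [Function.update_of_ne hne]; exact h v ((mem_insert.1 hv).resolve_left hne)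
    rw [h1, h2, ih, ex_const]
    ring

lemma ex_hit {β : Type} [DecidableEq β] {B K : Finset β} (h : K ⊆ B) (l : ℝ) :
    ex B (fun σ => if ∃ v ∈ K, σ v = true then (1 : ℝ) else 0) l = 1 - (1 - l) ^ K.card := by
  have e : (fun σ : β → Bool => if ∃ v ∈ K, σ v = true then (1 : ℝ) else 0)
      = fun σ => 1 - if ∀ v ∈ K, σ v = false then (1 : ℝ) else 0 := funext fun σ => by
    by_cases hh : ∀ v ∈ K, σ v = false
    · rw [if_pos hh, if_neg]
      · norm_num
      · rintro ⟨v, hv, hσ⟩; simp [hh v hv] at hσ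
    · rw [if_neg hh, if_pos]
      · norm_num
      · push Not at hh
        obtain ⟨v, hv, hσ⟩ := hh
        exact ⟨v, hv, by simpa using hσ⟩
  rw [e, ex_sub, ex_one, ex_subset h]
  · rw [ex_all_false]
  · intro σ σ' hσ
    exact if_congr ⟨fun hh v hv => hσ v hv ▸ hh v hv, fun hh v hv => (hσ v hv).symm ▸ hh v hv⟩
      rfl rfl

lemma one_sub_pow_le {M k : ℕ} (hM : 1 ≤ M) :
    1 - (1 - (1 : ℝ) / M) ^ k ≤ (∑ i ∈ range M, if i < k then (1 : ℝ) else 0) / M := by
  have hM' : (1 : ℝ) ≤ M := by exact_mod_cast hM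
  have hl : (1 : ℝ) / M ≤ 1 := by rw [div_le_one (by linarith)]; exact hM'
  have hc : (∑ i ∈ range M, if i < k then (1 : ℝ) else 0) = (min M k : ℕ) := by
    rw [sum_boole]
    congr 1
    rw [show (range M).filter (fun i => i < k) = range (min M k) by ext i; simp, card_range]
  rw [hc]
  rcases le_total M k with h | h
  · rw [min_eq_left h, div_self (by linarith : (M : ℝ) ≠ 0)]
    linarith [pow_nonneg (by linarith : (0 : ℝ) ≤ 1 - 1 / M) k]
  · rw [min_eq_right h]
    have hb := one_add_mul_le_pow (a := -((1 : ℝ) / M)) (by linarith) k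
    rw [← sub_eq_add_neg] at hb
    rw [show (k : ℝ) / M = -(k * -((1 : ℝ) / M)) by ring]
    linarith

variable {Γ : Type} [Group Γ] [Countable Γ] {S : Finset Γ}

/-- Closing all edges outside `E`. -/
noncomputable def cut (E : Finset (Sym2 Γ)) (ω : Sym2 Γ → Bool) : Sym2 Γ → Bool :=
  fun e => if e ∈ E then ω e else false

omit [Countable Γ] in
lemma cut_conf {E U : Finset (Sym2 Γ)} (h : U ⊆ E) : cut E (conf U) = conf U := by
  funext e
  by_cases he : e ∈ E
  · simp [cut, he]
  · simp only [cut, he, if_false, conf]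
    exact (decide_eq_false fun hU => he (h hU)).symm

lemma ex_big_le (hS : Gen S) (E : Finset (Sym2 Γ)) (i : ℕ) (v : Γ) {p q : unitInterval}
    (hpq : (p : ℝ) ≤ q) : ex E ((big S i v).indicator 1) p ≤ aN S i q := by
  let A : Set (Sym2 Γ → Bool) := {ω | cut E ω ∈ big S i v}
  have hA : Dep A E := fun ω η he h => by
    have : cut E η = cut E ω := funext fun e => by
      by_cases hm : e ∈ E <;> simp [cut, hm, he e]
    show cut E η ∈ big S i v
    rw [this]; exact h
  have hsub : A ⊆ big S i v := fun ω h => big_mono (fun e he => by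
    by_cases hm : e ∈ E <;> simp [cut, hm] at he
    exact he) h
  calc ex E ((big S i v).indicator 1) p = ex E (A.indicator 1) p :=
        ex_congr (fun U hU => by
          by_cases hc : conf U ∈ big S i v
          · rw [Set.indicator_of_mem hc, Set.indicator_of_mem]
            show cut E (conf U) ∈ big S i v
            rw [cut_conf hU]; exact hc
          · rw [Set.indicator_of_notMem hc, Set.indicator_of_notMem]
            show cut E (conf U) ∉ big S i v
            rw [cut_conf hU]; exact hc) p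
    _ = (perc Γ p).real A := (real_eq_ex hA).symm
    _ ≤ (perc Γ p).real (big S i v) := measureReal_mono hsub
    _ = aN S i p := real_big hS i v p
    _ ≤ aN S i q := aN_mono hS i hpq

/-- The average of the cluster-size tail. -/
noncomputable def avg (S : Finset Γ) (M : ℕ) (q : unitInterval) : ℝ :=
  (∑ i ∈ range M, aN S (i + 1) q) / M

lemma ex_hit_le (hS : Gen S) {M : ℕ} (hM : 1 ≤ M) (E : Finset (Sym2 Γ)) (B : Finset Γ) (v : Γ)
    {p q : unitInterval} (hpq : (p : ℝ) ≤ q) :
    ex E (fun ω => 1 - (1 - (1 : ℝ) / M) ^ (B.filter (· ∈ cl S ω v)).card) p ≤ avg S M q := by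
  refine (ex_le (g := fun ω => (1 / (M : ℝ)) * ∑ i ∈ range M, (big S (i + 1) v).indicator 1 ω)
    (fun U _ => ?_) p.2.1 p.2.2).trans ?_
  · refine (one_sub_pow_le hM).trans ?_
    rw [div_eq_inv_mul, one_div]
    refine mul_le_mul_of_nonneg_left (sum_le_sum fun i _ => ?_) (by positivity)
    split_ifs with hi
    · rw [Set.indicator_of_mem]
      · simp
      show ((i + 1 : ℕ) : ℕ∞) ≤ _
      refine le_trans (Nat.cast_le.2 (Nat.succ_le_of_lt hi)) ?_
      rw [← Set.encard_coe_eq_coe_finsetCard]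
      exact Set.encard_le_encard fun y hy => (mem_filter.1 hy).2
    · exact Set.indicator_nonneg (fun _ _ => zero_le_one) _
  · rw [ex_mul_left, ex_sum, avg, div_eq_inv_mul, mul_one, div_eq_inv_mul]
    exact mul_le_mul_of_nonneg_left (sum_le_sum fun i _ => ex_big_le hS E _ v hpq) (by positivity)

omit [Countable Γ] in
lemma cl_conf_subset {M : ℕ} {U : Finset (Sym2 Γ)} (hS : Gen S) (hU : U ⊆ edg S M 1) :
    cl S (conf U) 1 ⊆ ballAt S (M + 1) 1 := by
  rintro y ⟨q⟩
  suffices ∀ {a b : Γ}, (openGraph (cg S) (conf U)).Walk a b → a ∈ ballAt S (M + 1) 1 →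
      b ∈ ballAt S (M + 1) 1 from this q (self_mem_ballAt _ 1)
  clear q
  intro a b q
  induction q with
  | nil => exact id
  | @cons a c b h q ih =>
    refine fun _ => ih ?_
    have hm : s(a, c) ∈ edg S M 1 := hU (by simpa [conf] using h.2)
    obtain ⟨u, hu, hu'⟩ := mem_biUnion.1 hm
    obtain ⟨w, hw, hw'⟩ := mem_image.1 hu'
    rcases Sym2.eq_iff.1 hw' with ⟨rfl, rfl⟩ | ⟨rfl, rfl⟩
    · exact adj_mem_ballAt hS hu h.1
    · exact ballAt_mono (Nat.le_succ M) 1 hu

/-- The differential inequality. -/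
theorem deriv_bound (hS : Gen S) {M : ℕ} (hM : 1 ≤ M) {p q : unitInterval} (hpq : (p : ℝ) ≤ q) :
    ex (edg S M 1) ((big S M 1).indicator 1) p * ((1 - Real.exp (-1)) - avg S M q)
      ≤ avg S M q / 2 *
        ∑ e ∈ edg S M 1, ex (edg S M 1) (dd e ((big S M 1).indicator 1)) p := by
  set E := edg S M 1 with hE
  set f : (Sym2 Γ → Bool) → ℝ := (big S M 1).indicator 1 with hf
  set B := ballAt S (M + 1) 1 with hB
  set l : ℝ := 1 / M with hl
  have hM' : (1 : ℝ) ≤ M := by exact_mod_cast hM
  have hl0 : 0 ≤ l := by positivity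
  have hl1 : l ≤ 1 := by rw [hl, div_le_one (by linarith)]; exact hM'
  have hsub : ∀ e ∈ E, e ∈ (cg S).edgeSet := edg_subset_edgeSet M 1
  let G : (Γ → Bool) → Finset Γ := fun σ => B.filter fun v => σ v = true
  let T : (Γ → Bool) → DT (Sym2 Γ) := fun σ => tree (E.card + 1) E (G σ)
  let g : (Γ → Bool) → (Sym2 Γ → Bool) → ℝ := fun σ ω =>
    if (1 : Γ) ∈ fnd (E.card + 1) E (G σ) ω then 1 else 0
  have hg0 : ∀ σ ω, 0 ≤ g σ ω := fun σ ω => by simp only [g]; split_ifs <;> norm_num
  have hg1 : ∀ σ ω, g σ ω ≤ 1 := fun σ ω => by simp only [g]; split_ifs <;> norm_num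
  have hcomp : ∀ σ, Computes (T σ) (g σ) := fun σ ω η he => by
    simp only [g, (fnd_congr (E.card + 1) E (G σ) ω η he).1]
  have hmono : Mono f := mono_indicator fun _ _ he h => big_mono he h
  have hdd : ∀ e, 0 ≤ ex E (dd e f) p :=
    fun e => ex_nonneg (fun ω => sub_nonneg.2 (hmono ω e)) p.2.1 p.2.2
  have key : ∀ σ, ex E (fun ω => f ω * g σ ω) p - ex E f p * ex E (g σ) p
      ≤ 1 / 4 * ∑ e ∈ E, ex E (rev (T σ) e) p * ex E (dd e f) p := by
    intro σ
    refine (osss p.2.1 p.2.2 (T σ) (tree_wf _ _ _) hmono (hg0 σ) (hg1 σ) (hcomp σ)).trans ?_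
    refine mul_le_mul_of_nonneg_right (by nlinarith [sq_nonneg ((p : ℝ) - 1 / 2)])
      (sum_nonneg fun e _ => mul_nonneg (ex_nonneg (fun ω => rev_nonneg _ e ω) p.2.1 p.2.2)
        (hdd e))
  let hit : Γ → (Γ → Bool) → (Sym2 Γ → Bool) → ℝ := fun v σ ω =>
    if ∃ a ∈ B.filter (· ∈ cl S ω v), σ a = true then 1 else 0
  have hhit : ∀ v ω, ex B (fun σ => hit v σ ω) l
      = 1 - (1 - l) ^ (B.filter (· ∈ cl S ω v)).card := fun v ω => ex_hit (filter_subset _ _) l
  have hhit_le : ∀ v, ex B (fun σ => ex E (hit v σ) p) l ≤ avg S M q := fun v => by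
    rw [ex_comm]
    simp only [hhit]
    exact ex_hit_le hS hM E B v hpq
  have hfound : ∀ σ ω v, v ∈ fnd (E.card + 1) E (G σ) ω → hit v σ ω = 1 := by
    intro σ ω v hv
    obtain ⟨a, ha, hr⟩ := reach_of_fnd _ E (G σ) ω hsub v hv
    exact if_pos ⟨a, mem_filter.2 ⟨(mem_filter.1 ha).1, hr.symm⟩, (mem_filter.1 ha).2⟩
  have hgle : ∀ σ ω, g σ ω ≤ hit 1 σ ω := fun σ ω => by
    simp only [g]
    split_ifs with h
    · rw [hfound σ ω 1 h]
    · simp only [hit]; split_ifs <;> norm_num
  have hgge : ∀ σ, ∀ U ⊆ E, hit 1 σ (conf U) ≤ g σ (conf U) := by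
    intro σ U hU
    simp only [hit]
    split_ifs with h
    · obtain ⟨a, ha, hσ⟩ := h
      have : (1 : Γ) ∈ fnd (E.card + 1) E (G σ) (conf U) := by
        refine fnd_of_reach (H := cg S) (Nat.lt_succ_of_le (card_le_card
          ((tree_wf _ _ _).subset _))) (fun u _ w _ ho => hU (by simpa [conf] using ho))
          (mem_filter.2 ⟨(mem_filter.1 ha).1, hσ⟩) ?_
        exact SimpleGraph.Reachable.symm (mem_filter.1 ha).2
      simp [g, this]
    · exact hg0 _ _
  have hrev : ∀ e ∈ E, ex B (fun σ => ex E (rev (T σ) e) p) l ≤ 2 * avg S M q := by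
    intro e he
    induction e using Sym2.ind with
    | _ u w =>
      refine le_trans (ex_mono (g := fun σ => ex E (hit u σ) p + ex E (hit w σ) p) (fun σ => ?_)
        hl0 hl1) ?_
      · rw [← ex_add]
        refine ex_mono (fun ω => ?_) p.2.1 p.2.2
        have hn : ∀ v, 0 ≤ hit v σ ω := fun v => by simp only [hit]; split_ifs <;> norm_num
        by_cases hq : s(u, w) ∈ queried (T σ) ω
        · obtain ⟨⟨v, hv, hve⟩, -, -⟩ := touch_of_queried _ E (G σ) ω _ hq
          rcases Sym2.mem_iff.1 hve with rfl | rfl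
          · rw [rev, if_pos hq, hfound σ ω v hv]; linarith [hn w]
          · rw [rev, if_pos hq, hfound σ ω v hv]; linarith [hn u]
        · rw [rev, if_neg hq]; linarith [hn u, hn w]
      · rw [ex_add]; linarith [hhit_le u, hhit_le w]
  have hmain : ex E f p * (1 - Real.exp (-1)) ≤ ex B (fun σ => ex E (fun ω => f ω * g σ ω) p) l := by
    refine le_trans ?_ (ex_mono (f := fun σ => ex E (fun ω => f ω * hit 1 σ ω) p)
      (fun σ => ex_le (fun U hU => mul_le_mul_of_nonneg_left (hgge σ U hU)
        (Set.indicator_nonneg (fun _ _ => zero_le_one) _)) p.2.1 p.2.2) hl0 hl1)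
    rw [ex_comm, mul_comm, ← ex_mul_left]
    refine ex_le (fun U hU => ?_) p.2.1 p.2.2
    rw [ex_mul_left, hhit, mul_comm (1 - Real.exp (-1))]
    by_cases hb : conf U ∈ big S M 1
    · refine mul_le_mul_of_nonneg_left ?_ (Set.indicator_nonneg (fun _ _ => zero_le_one) _)
      have hc : M ≤ (B.filter (· ∈ cl S (conf U) 1)).card := by
        have hh : (M : ℕ∞) ≤ (cl S (conf U) 1).encard := hb
        rw [show cl S (conf U) 1 = ↑(B.filter (· ∈ cl S (conf U) 1)) from Set.ext fun y => by
          simp only [coe_filter, Set.mem_ofPred_eq]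
          exact ⟨fun hy => ⟨cl_conf_subset hS hU hy, hy⟩, fun hy => hy.2⟩,
          Set.encard_coe_eq_coe_finsetCard, Nat.cast_le] at hh
        exact hh
      have h1 : (1 - l) ^ (B.filter (· ∈ cl S (conf U) 1)).card ≤ (1 - l) ^ M :=
        pow_le_pow_of_le_one (by linarith) (by linarith) hc
      have h2 : (1 - l) ^ M ≤ Real.exp (-1) := by
        refine (pow_le_pow_left₀ (by linarith) (Real.one_sub_le_exp_neg l) M).trans_eq ?_
        rw [← Real.exp_nat_mul, hl]
        congr 1; field_simp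
      linarith
    · simp [hf, Set.indicator_of_notMem hb]
  have hupper : ex B (fun σ => ex E f p * ex E (g σ) p) l ≤ ex E f p * avg S M q := by
    rw [ex_mul_left]
    exact mul_le_mul_of_nonneg_left ((ex_mono (fun σ => ex_mono (hgle σ) p.2.1 p.2.2) hl0 hl1).trans
      (hhit_le 1)) (ex_nonneg (fun ω => Set.indicator_nonneg (fun _ _ => zero_le_one) ω) p.2.1 p.2.2)
  have htot := ex_mono (E := B) key hl0 hl1
  rw [ex_sub, ex_mul_left, ex_mul_left, ex_sum] at htot
  have hsum : ∑ e ∈ E, ex B (fun σ => ex E (rev (T σ) e) p * ex E (dd e f) p) l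
      ≤ 2 * avg S M q * ∑ e ∈ E, ex E (dd e f) p := by
    rw [mul_sum]
    refine sum_le_sum fun e he => ?_
    rw [show (fun σ => ex E (rev (T σ) e) p * ex E (dd e f) p)
      = fun σ => ex E (dd e f) p * ex E (rev (T σ) e) p from funext fun σ => mul_comm _ _,
      ex_mul_left, mul_comm]
    exact mul_le_mul_of_nonneg_right (hrev e he) (hdd e)
  rw [ex_mul_left] at hupper
  linarith [mul_sub (ex E f p) (1 - Real.exp (-1)) (avg S M q)]

lemma avg_le {M K : ℕ} (hM : 1 ≤ M) (q : unitInterval) :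
    avg S M q ≤ (K : ℝ) / M + aN S K q := by
  have hM' : (0 : ℝ) < M := by exact_mod_cast hM
  rw [avg, div_add' _ _ _ hM'.ne', div_le_div_iff_of_pos_right hM']
  calc ∑ i ∈ range M, aN S (i + 1) q
      ≤ ∑ i ∈ range M, ((if i < K then (1 : ℝ) else 0) + aN S K q) := sum_le_sum fun i _ => by
        split_ifs with h
        · linarith [aN_le_one (S := S) (i + 1) q, aN_nonneg (S := S) K q]
        · linarith [aN_anti (S := S) (show K ≤ i + 1 by omega) q]
    _ ≤ (K : ℝ) + aN S K q * M := by
        rw [sum_add_distrib, sum_const, card_range, nsmul_eq_mul, sum_boole]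
        refine add_le_add ?_ (le_of_eq (mul_comm _ _))
        exact_mod_cast (card_le_card (fun i hi => mem_range.2 (mem_filter.1 hi).2)).trans
          (card_range K).le

lemma avg_nonneg (M : ℕ) (q : unitInterval) : 0 ≤ avg S M q :=
  div_nonneg (sum_nonneg fun _ _ => aN_nonneg _ _) (Nat.cast_nonneg M)

/-- A large cluster which is not too unlikely is made likely by a small increase of the density. -/
theorem restore (hS : Gen S) {M K : ℕ} (hM : 1 ≤ M) {p q : unitInterval} (hpq : (p : ℝ) ≤ q)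
    {η : ℝ} (hη0 : 0 < η) (hη : η ≤ 1 / 20) (hK : (K : ℝ) / M + aN S K q ≤ η) :
    aN S M p * Real.exp (((q : ℝ) - p) / η) ≤ 1 := by
  set E := edg S M 1
  set f : (Sym2 Γ → Bool) → ℝ := (big S M 1).indicator 1 with hf
  let F : ℝ → ℝ := fun s => ex E f s * Real.exp (-s / η)
  have hm : avg S M q ≤ η := (avg_le hM q).trans hK
  have hd : ∀ s : ℝ, HasDerivAt F ((∑ e ∈ E, ex E (dd e f) s) * Real.exp (-s / η)
      + ex E f s * (Real.exp (-s / η) * (-1 / η))) s := fun s =>
    (hasDerivAt_ex E f s).mul (((hasDerivAt_id s).neg.div_const η).exp)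
  have hmono : MonotoneOn F (Set.Icc (p : ℝ) q) := by
    refine monotoneOn_of_hasDerivWithinAt_nonneg (convex_Icc _ _)
      (fun s _ => (hd s).continuousAt.continuousWithinAt) (fun s _ => (hd s).hasDerivWithinAt) ?_
    intro s hs
    rw [interior_Icc] at hs
    let u : unitInterval := ⟨s, p.2.1.trans hs.1.le, hs.2.le.trans q.2.2⟩
    have hb := deriv_bound hS hM (p := u) (q := q) hs.2.le
    have hf0 : 0 ≤ ex E f s := ex_nonneg (fun ω => Set.indicator_nonneg (fun _ _ => zero_le_one) ω)
      u.2.1 u.2.2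
    have hD0 : 0 ≤ ∑ e ∈ E, ex E (dd e f) s := sum_nonneg fun e _ =>
      ex_nonneg (fun ω => sub_nonneg.2 (mono_indicator (fun _ _ he h => big_mono he h) ω e))
        u.2.1 u.2.2
    have he : Real.exp (-1) ≤ 0.4 := by
      have := Real.exp_one_gt_d9
      rw [Real.exp_neg, inv_le_comm₀ (Real.exp_pos 1) (by norm_num)]
      linarith
    have h2 : ex E f s / η ≤ ∑ e ∈ E, ex E (dd e f) s := by
      rw [div_le_iff₀ hη0]
      have hb' : ex E f s * (1 / 2) ≤ η / 2 * ∑ e ∈ E, ex E (dd e f) s := by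
        refine le_trans (mul_le_mul_of_nonneg_left (by linarith) hf0) (hb.trans ?_)
        exact mul_le_mul_of_nonneg_right (by linarith) hD0
      linarith
    have := mul_nonneg (Real.exp_pos (-s / η)).le (sub_nonneg.2 h2)
    rw [show ex E f s * (Real.exp (-s / η) * (-1 / η))
      = -(Real.exp (-s / η) * (ex E f s / η)) by ring]
    linarith
  have h := hmono (Set.left_mem_Icc.2 hpq) (Set.right_mem_Icc.2 hpq) hpq
  have h1 : ex E f q ≤ 1 := (ex_mono (g := fun _ => (1 : ℝ))
    (fun ω => Set.indicator_le' (fun _ _ => le_refl _) (fun _ _ => zero_le_one) ω) q.2.1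
      q.2.2).trans_eq (ex_one _ _)
  rw [aN_eq_ex hS (R := M) (by omega)]
  calc ex E f p * Real.exp (((q : ℝ) - p) / η)
      = F p * Real.exp ((q : ℝ) / η) := by
        simp only [F]; rw [mul_assoc, ← Real.exp_add]; congr 2; ring
    _ ≤ F q * Real.exp ((q : ℝ) / η) := mul_le_mul_of_nonneg_right h (Real.exp_pos _).le
    _ = ex E f q := by simp only [F]; rw [mul_assoc, ← Real.exp_add, neg_div, neg_add_cancel]; simp
    _ ≤ 1 := h1

end Vale.Agent.P151.Growth
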