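import Mathlib
import Vale.Agent.P151.Growth.Cluster

/-!
The two-cluster event at an edge and the bound on its probability.
-/

namespace Vale.Agent.P151.Growth

open MeasureTheory
open Vale.Agent.P165 (perc)

variable {Γ : Type} [Group Γ]

/-- The edge between `x` and `y` is closed, its endpoints lie in different finite clusters, and
both have at least `n` vertices. -/
def twoEv (S : Finset Γ) (n : ℕ) (x y : Γ) : Set (Sym2 Γ → Bool) :=
  {ω | ω s(x, y) = false ∧ y ∉ cl S ω x ∧ ω ∈ big S n x ∧ ω ∈ big S n y ∧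
    (cl S ω x).Finite ∧ (cl S ω y).Finite}

/-- The two-cluster inequality for a given generating set. -/
def TwoGhost (S : Finset Γ) : Prop :=
  ∀ (p : unitInterval), 0 < (p : ℝ) → ∀ (n : ℕ), 1 ≤ n → ∀ (x s : Γ), s ∈ S →
    (perc Γ p).real (twoEv S n x (x * s)) ≤ 100 * S.card / ((p : ℝ) * Real.sqrt n)

end Vale.Agent.P151.Growth
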