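import Mathlib
import Vale.Agent.P151.Growth.Interfaces
import Vale.Agent.P151.Critical.Cluster

/-!
Large clusters at nearby vertices are joined, hence distant vertices are joined with a probability
which gives a lower bound for the probability of a very large cluster.
-/

namespace Vale.Agent.P151.Growth

open MeasureTheory Finset Critical Filter
open scoped Topology
open Vale.Agent.P165 (perc openGraph Dep pc)
open Vale.Agent.P165.Product (connIn)
open Vale.Agent.P151.Return (wball)
open Classical
open Function (update)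

section general

variable {W : Type} {p : unitInterval}

/-- Open all the edges in `F`. -/
noncomputable def opn (F : Finset (Sym2 W)) (ω : Sym2 W → Bool) : Sym2 W → Bool :=
  fun e => if e ∈ F then true else ω e

lemma opn_empty (ω : Sym2 W → Bool) : opn ∅ ω = ω := funext fun e => by simp [opn]

lemma le_opn (F : Finset (Sym2 W)) (ω : Sym2 W → Bool) (e : Sym2 W) (h : ω e = true) :
    opn F ω e = true := by
  unfold opn; split_ifs <;> simp [h]

lemma dep_opn {A : Set (Sym2 W → Bool)} {E : Finset (Sym2 W)} (h : Dep A E)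
    (F : Finset (Sym2 W)) : Dep {ω | opn F ω ∈ A} E := fun ω η he hω =>
  h _ _ (fun e hm => by simp only [opn, he e hm]) hω

lemma real_opn {A : Set (Sym2 W → Bool)} {E : Finset (Sym2 W)} (h : Dep A E) :
    ∀ F : Finset (Sym2 W),
      (p : ℝ) ^ F.card * (perc W p).real {ω | opn F ω ∈ A} ≤ (perc W p).real A := by
  intro F
  induction F using Finset.induction_on generalizing A with
  | empty => simp [opn_empty]
  | @insert a F ha ih =>
    have hstep : (p : ℝ) * (perc W p).real {ω | update ω a true ∈ A} ≤ (perc W p).real A := by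
      have hE : Dep A (insert a E) := h.mono (subset_insert a E)
      have hU : Dep {ω | update ω a true ∈ A} (insert a E) := fun ω η he hω =>
        hE _ _ (fun e hm => by
          rcases eq_or_ne e a with rfl | hne
          · simp
          · simp [Function.update_of_ne hne, he e hm]) hω
      rw [real_eq_ex hE, real_eq_ex hU, ex_insert' (mem_insert_self a E),
        ex_insert' (mem_insert_self a E)]
      have e1 : (fun ω : Sym2 W → Bool => ({ω | update ω a true ∈ A} : Set _).indicator
          (1 : (Sym2 W → Bool) → ℝ) (update ω a true))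
          = fun ω => A.indicator 1 (update ω a true) := funext fun ω => by
        simp [Set.indicator_apply, Set.mem_ofPred_eq]
      have e2 : (fun ω : Sym2 W → Bool => ({ω | update ω a true ∈ A} : Set _).indicator
          (1 : (Sym2 W → Bool) → ℝ) (update ω a false))
          = fun ω => A.indicator 1 (update ω a true) := funext fun ω => by
        simp [Set.indicator_apply, Set.mem_ofPred_eq]
      rw [e1, e2]
      have h0 : 0 ≤ ex ((insert a E).erase a) (fun ω => A.indicator 1 (update ω a false)) (p : ℝ) :=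
        ex_nonneg (fun ω => Set.indicator_nonneg (fun _ _ => zero_le_one) _) p.2.1 p.2.2
      nlinarith [mul_nonneg (sub_nonneg.2 p.2.2) h0]
    have hU : Dep {ω | update ω a true ∈ A} E := fun ω η he hω =>
      h _ _ (fun e hm => by
        rcases eq_or_ne e a with rfl | hne
        · simp
        · simp [Function.update_of_ne hne, he e hm]) hω
    have hset : {ω : Sym2 W → Bool | opn (insert a F) ω ∈ A}
        = {ω | opn F ω ∈ {η | update η a true ∈ A}} := by
      ext ω
      have : opn (insert a F) ω = update (opn F ω) a true := funext fun e => by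
        rcases eq_or_ne e a with rfl | hne
        · simp [opn]
        · simp [opn, hne]
      simp [this]
    rw [card_insert_of_notMem ha, pow_succ', hset, mul_assoc]
    exact (mul_le_mul_of_nonneg_left (ih hU) p.2.1).trans hstep

lemma mem_edgeSet_opn {H : SimpleGraph W} {ω : Sym2 W → Bool} {F : Finset (Sym2 W)} {a b : W}
    (h : (openGraph H (opn F ω)).Adj a b) : (openGraph H ω).Adj a b ∨ s(a, b) ∈ F := by
  by_cases hm : s(a, b) ∈ F
  · exact Or.inr hm
  · exact Or.inl ⟨h.1, by simpa [opn, hm] using h.2⟩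

/-- Connection after opening one edge. -/
lemma reach_one_edge {H : SimpleGraph W} {ω η : Sym2 W → Bool} {u w x y : W}
    (h : ∀ a b, (openGraph H η).Adj a b → (openGraph H ω).Adj a b ∨ s(a, b) = s(u, w))
    (hxy : (openGraph H η).Reachable x y) :
    (openGraph H ω).Reachable x y ∨
      ((openGraph H ω).Reachable x u ∨ (openGraph H ω).Reachable x w) ∧
        ((openGraph H ω).Reachable u y ∨ (openGraph H ω).Reachable w y) := by
  obtain ⟨q⟩ := hxy
  induction q with
  | nil => exact Or.inl (SimpleGraph.Reachable.refl _)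
  | @cons a c d hac q ih =>
    rcases h a c hac with hω | he
    · have hr := SimpleGraph.Adj.reachable hω
      rcases ih with h1 | ⟨h2, h3⟩
      · exact Or.inl (hr.trans h1)
      · exact Or.inr ⟨h2.imp hr.trans hr.trans, h3⟩
    · have hd : (openGraph H ω).Reachable c d ∨ (openGraph H ω).Reachable u d ∨
          (openGraph H ω).Reachable w d := ih.elim Or.inl fun h' => Or.inr h'.2
      rcases Sym2.eq_iff.1 he with ⟨rfl, rfl⟩ | ⟨rfl, rfl⟩
      · refine Or.inr ⟨Or.inl (SimpleGraph.Reachable.refl _), ?_⟩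
        rcases hd with h1 | h1 | h1
        · exact Or.inr h1
        · exact Or.inl h1
        · exact Or.inr h1
      · refine Or.inr ⟨Or.inr (SimpleGraph.Reachable.refl _), ?_⟩
        rcases hd with h1 | h1 | h1
        · exact Or.inl h1
        · exact Or.inl h1
        · exact Or.inr h1

lemma finite_opn {H : SimpleGraph W} {ω : Sym2 W → Bool}
    (h : ∀ x, {y | (openGraph H ω).Reachable x y}.Finite) :
    ∀ (F : Finset (Sym2 W)) (x : W), {y | (openGraph H (opn F ω)).Reachable x y}.Finite := by
  intro F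
  induction F using Finset.induction_on with
  | empty => simpa [opn_empty] using h
  | @insert e F he ih =>
    intro x
    induction e using Sym2.ind with
    | _ u w =>
      refine ((ih x).union ((ih u).union (ih w))).subset fun y hy => ?_
      have hadj : ∀ a b, (openGraph H (opn (insert s(u, w) F) ω)).Adj a b →
          (openGraph H (opn F ω)).Adj a b ∨ s(a, b) = s(u, w) := by
        intro a b hab
        rcases mem_edgeSet_opn hab with h' | h'
        · exact Or.inl ⟨h'.1, le_opn F ω _ h'.2⟩
        · rcases mem_insert.1 h' with h'' | h''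
          · exact Or.inr h''
          · exact Or.inl ⟨hab.1, by simp [opn, h'']⟩
      rcases reach_one_edge hadj hy with h1 | ⟨-, h1 | h1⟩
      · exact Or.inl h1
      · exact Or.inr (Or.inl h1)
      · exact Or.inr (Or.inr h1)

/-- Harris' inequality for two increasing local events. -/
lemma real_mul_le_inter {A B : Set (Sym2 W → Bool)} {E F : Finset (Sym2 W)} (hA : Dep A E)
    (hB : Dep B F)
    (mA : ∀ ω η : Sym2 W → Bool, (∀ e, ω e = true → η e = true) → ω ∈ A → η ∈ A)
    (mB : ∀ ω η : Sym2 W → Bool, (∀ e, ω e = true → η e = true) → ω ∈ B → η ∈ B) :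
    (perc W p).real A * (perc W p).real B ≤ (perc W p).real (A ∩ B) := by
  have hA' := hA.mono (subset_union_left (s₂ := F))
  have hB' := hB.mono (subset_union_right (s₁ := E))
  have mono : ∀ C : Set (Sym2 W → Bool),
      (∀ ω η : Sym2 W → Bool, (∀ e, ω e = true → η e = true) → ω ∈ C → η ∈ C) →
      Mono (C.indicator (1 : (Sym2 W → Bool) → ℝ)) := by
    intro C hC ω a
    by_cases h : update ω a false ∈ C
    · rw [Set.indicator_of_mem h, Set.indicator_of_mem (hC _ _ (fun e he => ?_) h)]
      · rfl
      · rcases eq_or_ne e a with rfl | hne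
        · simp at he
        · simpa [Function.update_of_ne hne] using he
    · rw [Set.indicator_of_notMem h]
      exact Set.indicator_nonneg (fun _ _ => zero_le_one) _
  rw [real_eq_ex hA', real_eq_ex hB', real_eq_ex (hA'.inter hB')]
  refine (harris p.2.1 p.2.2 _ (mono A mA) (mono B mB)).trans (le_of_eq ?_)
  congr 1
  funext ω
  by_cases h1 : ω ∈ A <;> by_cases h2 : ω ∈ B <;> simp [h1, h2]

end general

variable {Γ : Type} [Group Γ] [Countable Γ] {S : Finset Γ} {p : unitInterval}

/-- The two-point function as a real number. -/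
noncomputable def tt (S : Finset Γ) (p : unitInterval) (x y : Γ) : ℝ :=
  (perc Γ p).real (Vale.Agent.P165.conn (cg S) x y)

lemma tt_eq (x y : Γ) : tt S p x y = (two S p x y).toReal := by
  rw [tt, measureReal_def, two, tau]
  congr 2
  ext ω
  exact conn_iff_reachable.symm

lemma tt_shift (g x y : Γ) : tt S p (g * x) (g * y) = tt S p x y := by
  rw [tt_eq, tt_eq, inv_two S p g x y]

lemma tendsto_connIn (x y : Γ) :
    Tendsto (fun B : Finset Γ => (perc Γ p).real (connIn (cg S) B x y)) atTop (𝓝 (tt S p x y)) := by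
  have hm : Monotone fun B : Finset Γ => connIn (cg S) B x y := fun B B' h ω hω =>
    Vale.Agent.P165.Product.connIn_mono h (fun _ he => he) hω
  have hU : ⋃ B : Finset Γ, connIn (cg S) B x y = Vale.Agent.P165.conn (cg S) x y := by
    ext ω
    simp only [Set.mem_iUnion]
    constructor
    · rintro ⟨B, hB⟩; exact Vale.Agent.P165.Product.connIn_subset_conn B x y hB
    · intro h
      obtain ⟨q, hq⟩ := conn_iff_reachable.2 h
      exact ⟨q.support.toFinset, Vale.Agent.P151.Critical.connIn_of_op hq fun z hz =>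
        List.mem_toFinset.2 hz⟩
  have := tendsto_measure_iUnion_atTop (μ := perc Γ p) hm
  rw [hU] at this
  exact (ENNReal.tendsto_toReal (measure_ne_top _ _)).comp this

/-- The two-point function is supermultiplicative. -/
lemma tt_mul_le (x y z : Γ) : tt S p x y * tt S p y z ≤ tt S p x z := by
  refine le_of_tendsto' ((tendsto_connIn (S := S) (p := p) x y).mul
    (tendsto_connIn (S := S) (p := p) y z)) fun B => ?_
  refine (real_mul_le_inter (Vale.Agent.P165.Product.dep_connIn B x y)
    (Vale.Agent.P165.Product.dep_connIn B y z)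
    (fun _ _ he h => Vale.Agent.P165.Product.connIn_mono subset_rfl he h)
    (fun _ _ he h => Vale.Agent.P165.Product.connIn_mono subset_rfl he h)).trans ?_
  refine measureReal_mono fun ω h => ?_
  exact SimpleGraph.Reachable.trans (Vale.Agent.P165.Product.connIn_subset_conn B x y h.1)
    (Vale.Agent.P165.Product.connIn_subset_conn B y z h.2)

/-- Below the critical point all clusters are almost surely finite. -/
lemma infinite_null (hp : (p : ℝ) < pc (cg S)) :
    perc Γ p {ω | ∃ x, (cl S ω x).Infinite} = 0 := by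
  by_contra h
  refine absurd (csInf_le ?_ ?_) (not_le.2 hp)
  · refine ⟨0, ?_⟩
    rintro r (rfl | ⟨q, -, rfl⟩)
    · exact zero_le_one
    · exact q.2.1
  · exact Set.mem_insert_of_mem _ ⟨p, pos_iff_ne_zero.2 h, rfl⟩

/-- The two-cluster event with both clusters of at most `N` vertices. -/
def twoEvN (S : Finset Γ) (n N : ℕ) (x y : Γ) : Set (Sym2 Γ → Bool) :=
  twoEv S n x y ∩ {ω | (cl S ω x).encard ≤ (N : ℕ∞) ∧ (cl S ω y).encard ≤ (N : ℕ∞)}

omit [Countable Γ] in
lemma dep_twoEvN (hS : Gen S) (n N : ℕ) (x y : Γ) :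
    Dep (twoEvN S n N x y) (insert s(x, y) (edg S N x ∪ edg S N y)) := by
  rintro ω η he ⟨⟨h1, h2, h3, h4, h5, h6⟩, hx, hy⟩
  have ex := cl_congr hS (le_refl N) hx fun e hm =>
    he e (mem_insert_of_mem (mem_union_left _ hm))
  have ey := cl_congr hS (le_refl N) hy fun e hm =>
    he e (mem_insert_of_mem (mem_union_right _ hm))
  simp only [twoEvN, twoEv, big, Set.mem_inter_iff, Set.mem_ofPred_eq] at h3 h4 ⊢
  rw [ex, ey]
  exact ⟨⟨(he _ (mem_insert_self _ _)).symm.trans h1, h2, h3, h4, h5, h6⟩, hx, hy⟩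

lemma real_opn_twoEv (hS : Gen S) (F : Finset (Sym2 Γ)) (n : ℕ) (x y : Γ) :
    (p : ℝ) ^ F.card * (perc Γ p).real {ω | opn F ω ∈ twoEv S n x y}
      ≤ (perc Γ p).real (twoEv S n x y) := by
  have hm : Monotone fun N : ℕ => {ω | opn F ω ∈ twoEvN S n N x y} := fun N N' h ω hω =>
    ⟨hω.1, le_trans hω.2.1 (Nat.cast_le.2 h), le_trans hω.2.2 (Nat.cast_le.2 h)⟩
  have hU : ⋃ N : ℕ, {ω | opn F ω ∈ twoEvN S n N x y} = {ω | opn F ω ∈ twoEv S n x y} := by
    ext ω
    simp only [Set.mem_iUnion, Set.mem_ofPred_eq]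
    refine ⟨fun ⟨N, h⟩ => h.1, fun h => ?_⟩
    obtain ⟨-, -, -, -, hx, hy⟩ := id h
    refine ⟨max hx.toFinset.card hy.toFinset.card, h, ?_, ?_⟩
    · rw [hx.encard_eq_coe_toFinset_card]; exact Nat.cast_le.2 (le_max_left _ _)
    · rw [hy.encard_eq_coe_toFinset_card]; exact Nat.cast_le.2 (le_max_right _ _)
  have ht := (ENNReal.tendsto_toReal (measure_ne_top _ _)).comp
    (tendsto_measure_iUnion_atTop (μ := perc Γ p) hm)
  rw [hU] at ht
  refine le_of_tendsto' (ht.const_mul ((p : ℝ) ^ F.card)) fun N => ?_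
  exact (real_opn (dep_twoEvN hS n N x y) F).trans (measureReal_mono Set.inter_subset_left)

omit [Countable Γ] in
lemma exists_steps [DecidableEq Γ] : ∀ {l : ℕ} {y : Γ}, y ∈ wball S l →
    ∃ k ≤ l, ∃ v : ℕ → Γ, v 0 = 1 ∧ v k = y ∧ ∀ j < k, (v j)⁻¹ * v (j + 1) ∈ S
  | 0, y, hy => ⟨0, le_rfl, fun _ => 1, rfl, (mem_singleton.1 hy).symm, fun j hj =>
      absurd hj (Nat.not_lt_zero j)⟩
  | l + 1, y, hy => by
    rcases mem_union.1 hy with hy | hy
    · obtain ⟨k, hk, h⟩ := exists_steps hy
      exact ⟨k, hk.trans (Nat.le_succ l), h⟩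
    · obtain ⟨u, hu, s, hs, rfl⟩ := Finset.mem_mul.1 hy
      obtain ⟨k, hk, v, h0, hkv, hv⟩ := exists_steps hu
      refine ⟨k + 1, Nat.succ_le_succ hk, fun j => if j ≤ k then v j else u * s, ?_, ?_, ?_⟩
      · simpa using h0
      · simp
      · intro j hj
        rcases (Nat.lt_succ_iff.1 hj).lt_or_eq with h | rfl
        · simpa [h.le, Nat.succ_le_of_lt h] using hv j h
        · simp [hkv, hs]

/-- Large clusters at distance at most `l` are joined with a definite probability. -/
theorem hop (hS : Gen S) (hT : TwoGhost S) (hp0 : 0 < (p : ℝ)) (hp : (p : ℝ) < pc (cg S)) {n l : ℕ}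
    (hn : 1 ≤ n)
    (herr : (l : ℝ) / (p : ℝ) ^ l * (100 * S.card / ((p : ℝ) * Real.sqrt n)) ≤ aN S n p ^ 2 / 2)
    {y : Γ} (hy : y ∈ wball S l) : aN S n p ^ 2 / 2 ≤ tt S p 1 y := by
  obtain ⟨k, hkl, v, h0, hk, hv⟩ := exists_steps hy
  set F : ℕ → Finset (Sym2 Γ) := fun i => (range i).image fun j => s(v j, v (j + 1)) with hF
  set I : Set (Sym2 Γ → Bool) := {ω | ∃ x, (cl S ω x).Infinite}
  have hsub : big S n 1 ∩ big S n y ⊆ Vale.Agent.P165.conn (cg S) 1 y ∪ I ∪
      ⋃ j ∈ range k, {ω | opn (F j) ω ∈ twoEv S n (v j) (v (j + 1))} := by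
    rintro ω ⟨h1, h2⟩
    by_cases hc : ω ∈ Vale.Agent.P165.conn (cg S) 1 y
    · exact Or.inl (Or.inl hc)
    by_cases hI : ω ∈ I
    · exact Or.inl (Or.inr hI)
    refine Or.inr (Set.mem_iUnion₂.2 ?_)
    have hfin : ∀ x, (cl S ω x).Finite := fun x => by
      by_contra hx; exact hI ⟨x, hx⟩
    let R : ℕ → Prop := fun i => (openGraph (cg S) (opn (F i) ω)).Reachable 1 y
    have hall : ∀ i ≤ k, (openGraph (cg S) (opn (F k) ω)).Reachable 1 (v i) := by
      intro i
      induction i with
      | zero => intro _; rw [h0]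
      | succ i ih =>
        intro hi
        refine (ih (Nat.le_of_succ_le hi)).trans (SimpleGraph.Adj.reachable ⟨hS.adj_iff.2 (hv i hi), ?_⟩)
        have : s(v i, v (i + 1)) ∈ F k := mem_image.2 ⟨i, mem_range.2 hi, rfl⟩
        simp [opn, this]
    have hRk : R k := by
      have h' := hall k le_rfl
      rw [hk] at h'
      exact h'
    have hex : ∃ i, R i := ⟨k, hRk⟩
    have hi0 : Nat.find hex ≠ 0 := fun h => hc (by
      have := Nat.find_spec hex
      rw [h] at this
      simpa [R, hF, opn_empty, Vale.Agent.P165.conn] using this)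
    obtain ⟨j, hj⟩ : ∃ j, Nat.find hex = j + 1 := ⟨Nat.find hex - 1, by omega⟩
    have hjk : j < k := by
      have := Nat.find_le (h := hex) hRk
      omega
    have hnot : ¬R j := Nat.find_min hex (by omega)
    have hyes : R (j + 1) := hj ▸ Nat.find_spec hex
    refine ⟨j, mem_range.2 hjk, ?_⟩
    set η := opn (F j) ω
    have hFs : F (j + 1) = insert s(v j, v (j + 1)) (F j) := by
      simp [hF, range_add_one, image_insert]
    have hadj : ∀ a b, (openGraph (cg S) (opn (F (j + 1)) ω)).Adj a b →
        (openGraph (cg S) η).Adj a b ∨ s(a, b) = s(v j, v (j + 1)) := by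
      intro a b hab
      rw [hFs] at hab
      by_cases he : s(a, b) = s(v j, v (j + 1))
      · exact Or.inr he
      · refine Or.inl ⟨hab.1, ?_⟩
        have := hab.2
        simp only [η, opn] at this ⊢
        simpa [mem_insert, he] using this
    have hsize : ∀ x, ω ∈ big S n x → η ∈ big S n x := fun x hx => big_mono (le_opn _ ω) hx
    have hfinη : ∀ x, (cl S η x).Finite := finite_opn hfin (F j)
    have hR : ¬(openGraph (cg S) η).Reachable 1 y := hnot
    rcases reach_one_edge hadj hyes with h | ⟨hl, hr⟩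
    · exact absurd h hR
    have hsep : ¬(openGraph (cg S) η).Reachable (v j) (v (j + 1)) := fun h => hR <| by
      rcases hl with hl | hl <;> rcases hr with hr | hr
      · exact hl.trans hr
      · exact (hl.trans h).trans hr
      · exact (hl.trans h.symm).trans hr
      · exact hl.trans hr
    have hclosed : η s(v j, v (j + 1)) = false := by
      by_contra h
      exact hsep (SimpleGraph.Adj.reachable ⟨hS.adj_iff.2 (hv j hjk), by simpa using h⟩)
    have h1' := hsize 1 h1
    have h2' := hsize y h2
    refine ⟨hclosed, hsep, ?_, ?_, hfinη _, hfinη _⟩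
    · rcases hl with hl | hl
      · show (n : ℕ∞) ≤ _
        rw [cl_eq_of_reach hl]; exact h1'
      · rcases hr with hr | hr
        · show (n : ℕ∞) ≤ _
          rw [← cl_eq_of_reach hr]; exact h2'
        · exact absurd (hl.trans hr) hR
    · rcases hl with hl | hl
      · rcases hr with hr | hr
        · exact absurd (hl.trans hr) hR
        · show (n : ℕ∞) ≤ _
          rw [← cl_eq_of_reach hr]; exact h2'
      · show (n : ℕ∞) ≤ _
        rw [cl_eq_of_reach hl]; exact h1'
  have hI : (perc Γ p).real I = 0 := by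
    rw [measureReal_def, infinite_null hp, ENNReal.toReal_zero]
  have hC : 0 ≤ 100 * (S.card : ℝ) / ((p : ℝ) * Real.sqrt n) := by positivity
  have hterm : ∀ j ∈ range k, (perc Γ p).real {ω | opn (F j) ω ∈ twoEv S n (v j) (v (j + 1))}
      ≤ 1 / (p : ℝ) ^ l * (100 * S.card / ((p : ℝ) * Real.sqrt n)) := by
    intro j hj
    have h := real_opn_twoEv (p := p) hS (F j) n (v j) (v (j + 1))
    have hT' := hT p hp0 n hn (v j) ((v j)⁻¹ * v (j + 1)) (hv j (mem_range.1 hj))
    rw [mul_inv_cancel_left] at hT'
    have hc : (F j).card ≤ l := card_image_le.trans (by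
      simp only [card_range]; exact ((mem_range.1 hj).le).trans hkl)
    rw [div_mul_eq_mul_div, one_mul, le_div_iff₀ (pow_pos hp0 l)]
    refine le_trans ?_ (h.trans hT')
    rw [mul_comm]
    exact mul_le_mul_of_nonneg_right (pow_le_pow_of_le_one p.2.1 p.2.2 hc) measureReal_nonneg
  have hFKG : aN S n p * aN S n p ≤ (perc Γ p).real (big S n 1 ∩ big S n y) := by
    have h := real_mul_le_inter (p := p) (dep_big (R := n) (n := n) hS 1 (by omega))
      (dep_big (R := n) (n := n) hS y (by omega)) (fun _ _ he h => big_mono he h)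
      (fun _ _ he h => big_mono he h)
    rwa [real_big hS n 1, real_big hS n y] at h
  have hU : (perc Γ p).real (⋃ j ∈ range k, {ω | opn (F j) ω ∈ twoEv S n (v j) (v (j + 1))})
      ≤ (l : ℝ) / (p : ℝ) ^ l * (100 * S.card / ((p : ℝ) * Real.sqrt n)) := by
    refine (measureReal_biUnion_finset_le _ _).trans ((sum_le_sum hterm).trans ?_)
    rw [sum_const, card_range, nsmul_eq_mul, ← mul_assoc, mul_one_div]
    gcongr
  have h3 := (measureReal_mono (μ := perc Γ p) hsub).trans
    ((measureReal_union_le _ _).trans (add_le_add (measureReal_union_le _ _) hU))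
  rw [hI, add_zero] at h3
  rw [pow_two] at herr ⊢
  rw [tt]
  linarith

omit [Countable Γ] in
lemma mem_wball_add [DecidableEq Γ] {m : ℕ} : ∀ {n : ℕ} {v : Γ}, v ∈ wball S (m + n) →
    ∃ u ∈ wball S m, ∃ w ∈ wball S n, u * w = v
  | 0, v, hv => ⟨v, hv, 1, Return.one_mem_wball S 0, mul_one v⟩
  | n + 1, v, hv => by
    rcases mem_union.1 hv with hv | hv
    · obtain ⟨u, hu, w, hw, rfl⟩ := mem_wball_add hv
      exact ⟨u, hu, w, mem_union_left _ hw, rfl⟩
    · obtain ⟨z, hz, s, hs, rfl⟩ := Finset.mem_mul.1 hv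
      obtain ⟨u, hu, w, hw, rfl⟩ := mem_wball_add hz
      exact ⟨u, hu, w * s, mem_union_right _ (Finset.mul_mem_mul hw hs), (mul_assoc u w s).symm⟩

lemma chain {l : ℕ} {κ : ℝ} (hκ : 0 ≤ κ) (h : ∀ y ∈ wball S l, κ ≤ tt S p 1 y) :
    ∀ m : ℕ, ∀ v ∈ wball S (m * l), κ ^ m ≤ tt S p 1 v
  | 0, v, hv => by
    rw [Nat.zero_mul] at hv
    rw [mem_singleton.1 hv, pow_zero, tt]
    refine le_of_eq ?_
    rw [show Vale.Agent.P165.conn (cg S) (1 : Γ) 1 = Set.univ from
      Set.eq_univ_of_forall fun _ => SimpleGraph.Reachable.refl _, probReal_univ]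
  | m + 1, v, hv => by
    rw [Nat.succ_mul] at hv
    obtain ⟨u, hu, w, hw, rfl⟩ := mem_wball_add hv
    rw [pow_succ]
    refine (mul_le_mul (chain hκ h m u hu) (h w hw) hκ measureReal_nonneg).trans ?_
    refine le_trans ?_ (tt_mul_le 1 u (u * w))
    have := tt_shift (S := S) (p := p) u 1 w
    rw [mul_one] at this
    rw [this]

/-- The sum of the two-point function over a finite set. -/
lemma sum_tt_le (hS : Gen S) (B : Finset Γ) (M : ℕ) :
    ∑ v ∈ B, tt S p 1 v ≤ (M : ℝ) + B.card * aN S M p := by
  have hd := (dep_big (R := M) hS (1 : Γ) (show M ≤ M + 1 by omega)).measurableSet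
  have hmc : ∀ v : Γ, MeasurableSet (Vale.Agent.P165.conn (cg S) 1 v) := fun v =>
    Vale.Agent.P165.measurableSet_conn 1 v
  have hsplit : ∀ v ∈ B, tt S p 1 v ≤
      (perc Γ p).real (Vale.Agent.P165.conn (cg S) 1 v ∩ (big S M 1)ᶜ) + aN S M p := by
    intro v _
    refine le_trans (measureReal_mono fun ω hω => ?_) (measureReal_union_le _ (big S M 1))
    by_cases h : ω ∈ big S M 1
    · exact Or.inr h
    · exact Or.inl ⟨hω, h⟩
  refine (sum_le_sum hsplit).trans ?_
  rw [sum_add_distrib, sum_const, nsmul_eq_mul]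
  refine add_le_add ?_ le_rfl
  have hm : ∀ v ∈ B, MeasurableSet (Vale.Agent.P165.conn (cg S) 1 v ∩ (big S M 1)ᶜ) :=
    fun v _ => (hmc v).inter hd.compl
  calc ∑ v ∈ B, (perc Γ p).real (Vale.Agent.P165.conn (cg S) 1 v ∩ (big S M 1)ᶜ)
      = ∫ ω, ∑ v ∈ B,
          (Vale.Agent.P165.conn (cg S) 1 v ∩ (big S M 1)ᶜ).indicator (fun _ => (1 : ℝ)) ω
          ∂(perc Γ p) := by
        rw [integral_finsetSum _ fun v hv => (integrable_const _).indicator (hm v hv)]
        exact sum_congr rfl fun v hv => by rw [integral_indicator_const _ (hm v hv), smul_eq_mul,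
          mul_one]
    _ ≤ ∫ _, (M : ℝ) ∂(perc Γ p) := by
        refine integral_mono (integrable_finsetSum _ fun v hv =>
          (integrable_const _).indicator (hm v hv)) (integrable_const _) fun ω => ?_
        by_cases h : ω ∈ big S M 1
        · simp [h]
        simp only [Set.indicator_apply, Set.mem_inter_iff, Set.mem_compl_iff, h, not_false_iff,
          and_true]
        rw [sum_boole, Nat.cast_le]
        have h' : (cl S ω 1).encard < (M : ℕ∞) := not_le.1 h
        have hc : ((B.filter fun v => ω ∈ Vale.Agent.P165.conn (cg S) 1 v : Finset Γ) : Set Γ)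
            ⊆ cl S ω 1 := fun v hv => (mem_filter.1 hv).2
        have := (Set.encard_le_encard hc).trans h'.le
        rwa [Set.encard_coe_eq_coe_finsetCard, Nat.cast_le] at this
    _ = M := by simp

/-- A large cluster gives a very large cluster. -/
theorem jump (hS : Gen S) (hT : TwoGhost S) (hp0 : 0 < (p : ℝ)) (hp : (p : ℝ) < pc (cg S))
    {n l : ℕ} (hn : 1 ≤ n)
    (herr : (l : ℝ) / (p : ℝ) ^ l * (100 * S.card / ((p : ℝ) * Real.sqrt n)) ≤ aN S n p ^ 2 / 2)
    (m M : ℕ) :
    (aN S n p ^ 2 / 2) ^ m * (wball S (m * l)).card ≤ (M : ℝ) + (wball S (m * l)).card * aN S M p := by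
  refine le_trans ?_ (sum_tt_le hS _ M)
  rw [mul_comm, ← nsmul_eq_mul]
  exact card_nsmul_le_sum _ _ _ (chain (by positivity) (fun y hy => hop hS hT hp0 hp hn herr hy) m)

end Vale.Agent.P151.Growth
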