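import Mathlib
import Vale.Agent.P151.Growth.Deriv
import Vale.Agent.P151.Growth.Hop

/-!
One step of the iteration: from a cluster of size `n` to a cluster of size `k`, much larger, at a
slightly larger density.
-/

namespace Vale.Agent.P151.Growth

open MeasureTheory Finset Filter
open scoped Topology
open Vale.Agent.P165 (perc pc)
open Vale.Agent.P151.Return (wball)

variable {Γ : Type} [Group Γ]

/-- The logarithm of the volume of the ball. -/
noncomputable def gr (S : Finset Γ) (r : ℕ) : ℝ :=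
  letI := Classical.decEq Γ
  Real.log (wball S r).card

lemma gr_mono (S : Finset Γ) : Monotone (gr S) := by
  classical
  intro r R h
  unfold gr
  refine Real.log_le_log ?_ ?_
  · exact_mod_cast card_pos.2 ⟨1, Return.one_mem_wball S r⟩
  · exact_mod_cast card_le_card (Return.wball_mono S h)

/-- The hop length per unit of the logarithm of the cluster size. -/
noncomputable def c1 (P0 : ℝ) : ℝ := 1 / (6 * (|Real.log P0| + 1))

lemma c1_pos (P0 : ℝ) : 0 < c1 P0 := by unfold c1; positivity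

lemma c1_le_one (P0 : ℝ) : c1 P0 ≤ 1 := by
  unfold c1
  rw [div_le_one (by positivity)]
  linarith [abs_nonneg (Real.log P0)]

lemma pow_hop_ge {P0 x : ℝ} (hP : 0 < P0) (hx : 0 ≤ x) {l : ℕ} (hl : (l : ℝ) ≤ c1 P0 * x) :
    Real.exp (-(x / 6)) ≤ P0 ^ l := by
  rw [← Real.rpow_natCast, Real.rpow_def_of_pos hP, Real.exp_le_exp]
  have ha := abs_nonneg (Real.log P0)
  have h : c1 P0 * |Real.log P0| ≤ 1 / 6 := by
    unfold c1
    rw [div_mul_eq_mul_div, one_mul, div_le_iff₀ (by positivity)]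
    linarith
  nlinarith [neg_abs_le (Real.log P0), mul_le_mul_of_nonneg_right hl ha,
    mul_le_mul_of_nonneg_left h hx, Nat.cast_nonneg (α := ℝ) l]

lemma hop_err {S : Finset Γ} {P0 L : ℝ} (hP0 : 0 < P0) {p : unitInterval} {n l : ℕ}
    (hp : P0 ≤ (p : ℝ)) (hn : 1 ≤ n) (hx0 : 0 < Real.log n)
    (hl : (l : ℝ) ≤ c1 P0 * Real.log n)
    (hX : 400 * S.card / P0 * Real.log n ≤ Real.exp (Real.log n / 4)) (hL' : L ≤ Real.log n / 24)
    (han : Real.exp (-L) ≤ aN S n p) :
    (l : ℝ) / (p : ℝ) ^ l * (100 * S.card / ((p : ℝ) * Real.sqrt n)) ≤ aN S n p ^ 2 / 2 := by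
  have hp0 : 0 < (p : ℝ) := hP0.trans_le hp
  set x := Real.log n with hxdef
  have hsq : Real.sqrt n = Real.exp (x / 2) := by
    rw [Real.exp_half, hxdef, Real.exp_log (by exact_mod_cast hn)]
  have hpl : Real.exp (-(x / 6)) ≤ (p : ℝ) ^ l :=
    (pow_hop_ge hP0 hx0.le hl).trans (pow_le_pow_left₀ hP0.le hp l)
  calc (l : ℝ) / (p : ℝ) ^ l * (100 * S.card / ((p : ℝ) * Real.sqrt n))
      ≤ x / Real.exp (-(x / 6)) * (100 * S.card / (P0 * Real.exp (x / 2))) := by
        rw [hsq]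
        refine mul_le_mul ?_ ?_ (by positivity) (by positivity)
        · refine div_le_div₀ hx0.le ?_ (Real.exp_pos _) hpl
          exact hl.trans (mul_le_of_le_one_left hx0.le (c1_le_one P0))
        · gcongr
    _ = 400 * S.card / P0 * x * (Real.exp (x / 6) / Real.exp (x / 2)) / 4 := by
        rw [Real.exp_neg]; field_simp; ring
    _ ≤ Real.exp (x / 4) * (Real.exp (x / 6) / Real.exp (x / 2)) / 4 := by
        gcongr
    _ = Real.exp (-(x / 12)) / 4 := by
        rw [← Real.exp_sub, ← Real.exp_add]; ring_nf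
    _ ≤ Real.exp (-(2 * L)) / 4 := by
        gcongr; linarith
    _ ≤ Real.exp (-L) ^ 2 / 2 := by
        rw [← Real.exp_nat_mul]; push_cast
        rw [show (2 : ℝ) * -L = -(2 * L) by ring]
        linarith [Real.exp_pos (-(2 * L))]
    _ ≤ aN S n p ^ 2 / 2 := by
        gcongr


lemma restore_gain [Countable Γ] {S : Finset Γ} (hS : Gen S) {p q : unitInterval} {M : ℕ} {G T : ℝ}
    (hpq : (p : ℝ) ≤ q) (hM1 : 1 ≤ M) (hM' : Real.exp (G / 2) ≤ M)
    (haM : Real.exp (-T) / 2 ≤ aN S M p) (hT0 : 0 ≤ T) (hG : 200 ≤ G)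
    (hq : 4 * (T + 1) * Real.exp (-Real.sqrt (G / 8)) ≤ (q : ℝ) - p) :
    Real.exp (-Real.sqrt (G / 8)) ≤ aN S ⌈Real.exp (G / 8)⌉₊ q := by
  set L1 := Real.sqrt (G / 8) with hL1def
  set k := ⌈Real.exp (G / 8)⌉₊ with hkdef
  by_contra hlt
  have hlt := not_le.1 hlt
  have hL5 : 5 ≤ L1 := by
    rw [hL1def]; exact Real.le_sqrt_of_sq_le (by linarith)
  have hL1G : L1 ≤ G / 8 := by
    have h := Real.sq_sqrt (show 0 ≤ G / 8 by linarith)
    rw [← hL1def] at h
    nlinarith
  set η := 3 * Real.exp (-L1) with hηdef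
  have hη : η ≤ 1 / 20 := by
    have h64 : (64 : ℝ) ≤ Real.exp L1 := by
      have : (2 : ℝ) ^ 6 ≤ Real.exp (L1 / 6) ^ 6 :=
        pow_le_pow_left₀ (by norm_num) (by
          nlinarith [Real.quadratic_le_exp_of_nonneg (show 0 ≤ L1 / 6 by linarith)]) 6
      rw [← Real.exp_nat_mul] at this
      norm_num at this ⊢
      linarith [show Real.exp (6 * (L1 / 6)) = Real.exp L1 by ring_nf]
    rw [hηdef, Real.exp_neg, ← div_eq_mul_inv, div_le_iff₀ (Real.exp_pos _)]
    linarith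
  have hK : (k : ℝ) / M + aN S k q ≤ η := by
    have hk : (k : ℝ) ≤ 2 * Real.exp (G / 8) := by
      have h1 : (1 : ℝ) ≤ Real.exp (G / 8) := Real.one_le_exp (by linarith)
      linarith [(Nat.ceil_lt_add_one (Real.exp_pos (G / 8)).le).le]
    have : (k : ℝ) / M ≤ 2 * Real.exp (-L1) := by
      calc (k : ℝ) / M ≤ 2 * Real.exp (G / 8) / Real.exp (G / 2) :=
            div_le_div₀ (by positivity) hk (Real.exp_pos _) hM'
        _ = 2 * Real.exp (G / 8 - G / 2) := by rw [mul_div_assoc, ← Real.exp_sub]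
        _ ≤ 2 * Real.exp (-L1) := by gcongr; linarith
    linarith
  have hr := restore hS hM1 hpq (by positivity) hη hK
  have hΔ : 4 * (T + 1) / 3 ≤ ((q : ℝ) - p) / η := by
    rw [le_div_iff₀ (by positivity)]
    linarith [show 4 * (T + 1) / 3 * η = 4 * (T + 1) * Real.exp (-L1) by rw [hηdef]; ring]
  have h1 : Real.exp (-T) / 2 * Real.exp (4 * (T + 1) / 3) ≤ 1 :=
    le_trans (mul_le_mul haM (Real.exp_le_exp.2 hΔ) (Real.exp_pos _).le (aN_nonneg _ _)) hr
  rw [div_mul_eq_mul_div, ← Real.exp_add] at h1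
  linarith [Real.add_one_le_exp (-T + 4 * (T + 1) / 3)]


/-- One step. -/
theorem step [Countable Γ] {S : Finset Γ} (hS : Gen S) (hT : TwoGhost S) {P0 : ℝ} (hP0 : 0 < P0) :
    ∃ X0 : ℝ, ∀ (p q : unitInterval) (n r : ℕ) (L T : ℝ),
      P0 ≤ (p : ℝ) → (p : ℝ) < pc (cg S) → (p : ℝ) ≤ q → X0 ≤ Real.log n →
      1 ≤ L → L ≤ Real.log n / 24 → Real.exp (-L) ≤ aN S n p →
      3 * L * (2 * r / (c1 P0 * Real.log n) + 1) ≤ T → 200 ≤ gr S r → T + 3 ≤ gr S r / 2 →
      4 * (T + 1) * Real.exp (-Real.sqrt (gr S r / 8)) ≤ (q : ℝ) - p →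
      ∃ k : ℕ, gr S r / 8 ≤ Real.log k ∧ Real.exp (-Real.sqrt (gr S r / 8)) ≤ aN S k q := by
  classical
  have hev : ∀ᶠ x : ℝ in atTop, 400 * S.card / P0 * x ≤ Real.exp (x / 4) := by
    have h := (Real.tendsto_exp_div_pow_atTop 1).comp
      (tendsto_id.atTop_div_const (by norm_num : (0 : ℝ) < 4))
    filter_upwards [h.eventually_ge_atTop (1600 * S.card / P0), eventually_gt_atTop 0] with x hx hx0
    simp only [Function.comp_apply, id_eq, pow_one] at hx
    rw [le_div_iff₀ (by positivity)] at hx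
    linarith [show 1600 * (S.card : ℝ) / P0 * (x / 4) = 400 * S.card / P0 * x by ring]
  obtain ⟨X1, hX1⟩ := eventually_atTop.1 hev
  refine ⟨max X1 (2 / c1 P0), fun p q n r L T hp hpc hpq hx hL hL' han hT' hG hTG hq => ?_⟩
  set x := Real.log n with hxdef
  set G := gr S r with hGdef
  have hc := c1_pos P0
  have hx2 : 2 / c1 P0 ≤ x := le_trans (le_max_right _ _) hx
  have hx0 : 0 < x := lt_of_lt_of_le (by positivity) hx2
  have hp0 : 0 < (p : ℝ) := hP0.trans_le hp
  have hn : 1 ≤ n := by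
    rcases Nat.eq_zero_or_pos n with rfl | h
    · simp [hxdef] at hx0
    · exact h
  have hcx : 2 ≤ c1 P0 * x := by rw [div_le_iff₀ hc] at hx2; linarith
  set l := ⌊c1 P0 * x⌋₊ with hldef
  have hl : (l : ℝ) ≤ c1 P0 * x := Nat.floor_le (by positivity)
  have hl' : c1 P0 * x / 2 ≤ l := by linarith [Nat.lt_floor_add_one (c1 P0 * x)]
  have hl0 : (0 : ℝ) < l := by linarith
  have herr := hop_err hP0 (S := S) hp hn hx0 hl (hX1 x (le_trans (le_max_left _ _) hx)) hL' han
  set m := ⌈(r : ℝ) / l⌉₊ with hmdef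
  have hm : (m : ℝ) ≤ 2 * r / (c1 P0 * x) + 1 := by
    refine (Nat.ceil_lt_add_one (by positivity)).le.trans ?_
    gcongr ?_ + 1
    rw [show 2 * (r : ℝ) / (c1 P0 * x) = (r : ℝ) / (c1 P0 * x / 2) by field_simp]
    exact div_le_div_of_nonneg_left (Nat.cast_nonneg r) (by positivity) hl'
  have hrR : r ≤ m * l := by
    have : (r : ℝ) ≤ ((m * l : ℕ) : ℝ) := by
      push_cast; exact (div_le_iff₀ hl0).1 (Nat.le_ceil _)
    exact_mod_cast this
  have hmT : 3 * L * (m : ℝ) ≤ T := le_trans (by gcongr) hT'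
  have hT0 : 0 ≤ T := le_trans (by positivity) hmT
  have hκ : Real.exp (-T) ≤ (aN S n p ^ 2 / 2) ^ m := by
    refine le_trans ?_ (pow_le_pow_left₀ (Real.exp_pos _).le
      (show Real.exp (-(3 * L)) ≤ aN S n p ^ 2 / 2 from ?_) m)
    · rw [← Real.exp_nat_mul, Real.exp_le_exp]; linarith
    · refine le_trans ?_ (div_le_div_of_nonneg_right (pow_le_pow_left₀ (Real.exp_pos _).le han 2)
        two_pos.le)
      rw [← Real.exp_nat_mul, le_div_iff₀ two_pos]
      have h2 : (2 : ℝ) ≤ Real.exp L := by linarith [Real.add_one_le_exp L]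
      calc Real.exp (-(3 * L)) * 2 ≤ Real.exp (-(3 * L)) * Real.exp L := by gcongr
        _ = Real.exp (((2 : ℕ) : ℝ) * -L) := by rw [← Real.exp_add]; push_cast; ring_nf
  set B : ℝ := (((wball S (m * l)).card : ℕ) : ℝ) with hBdef
  have hB : Real.exp G ≤ B := by
    have h := gr_mono S hrR
    rw [← hGdef] at h
    have hpos : (0 : ℝ) < B := by
      rw [hBdef]; exact_mod_cast card_pos.2 ⟨1, Return.one_mem_wball S (m * l)⟩
    rw [← Real.exp_log hpos]
    refine Real.exp_le_exp.2 (h.trans (le_of_eq ?_))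
    unfold gr
    congr 4
  set M := ⌊B * Real.exp (-T) / 2⌋₊ with hMdef
  have hB0 : 0 < B := (Real.exp_pos G).trans_le hB
  have hbig : Real.exp (G / 2) * 8 ≤ B * Real.exp (-T) := by
    have h8 : (8 : ℝ) ≤ Real.exp 3 := by
      have : (2 : ℝ) ^ 3 ≤ Real.exp 1 ^ 3 :=
        pow_le_pow_left₀ (by norm_num) (by linarith [Real.add_one_le_exp 1]) 3
      rw [← Real.exp_nat_mul] at this
      norm_num at this ⊢
      exact this
    calc Real.exp (G / 2) * 8 ≤ Real.exp (G / 2) * Real.exp 3 := by gcongr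
      _ = Real.exp (G / 2 + 3) := (Real.exp_add _ _).symm
      _ ≤ Real.exp (G + -T) := Real.exp_le_exp.2 (by linarith)
      _ = Real.exp G * Real.exp (-T) := Real.exp_add _ _
      _ ≤ B * Real.exp (-T) := by gcongr
  have hM : (M : ℝ) ≤ B * Real.exp (-T) / 2 := Nat.floor_le (by positivity)
  have hM' : Real.exp (G / 2) ≤ M := by
    have := Nat.lt_floor_add_one (B * Real.exp (-T) / 2)
    have h1 : (1 : ℝ) ≤ Real.exp (G / 2) := Real.one_le_exp (by linarith)
    linarith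
  have hM1 : 1 ≤ M := by
    have : (1 : ℝ) ≤ M := le_trans (Real.one_le_exp (by linarith)) hM'
    exact_mod_cast this
  have haM : Real.exp (-T) / 2 ≤ aN S M p := by
    have hj := jump hS hT hp0 hpc hn herr m M
    rw [← hBdef] at hj
    have : B * (Real.exp (-T) / 2) ≤ B * aN S M p := by
      nlinarith [mul_le_mul_of_nonneg_right hκ hB0.le]
    exact le_of_mul_le_mul_left this hB0
  set L1 := Real.sqrt (G / 8) with hL1def
  set k := ⌈Real.exp (G / 8)⌉₊ with hkdef
  refine ⟨k, ?_, ?_⟩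
  · calc G / 8 = Real.log (Real.exp (G / 8)) := (Real.log_exp _).symm
      _ ≤ Real.log k := Real.log_le_log (Real.exp_pos _) (Nat.le_ceil _)
  exact restore_gain hS hpq hM1 hM' haM hT0 hG hq

end Vale.Agent.P151.Growth
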