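import Mathlib
import Vale.Agent.P151.Growth.Interfaces

/-!
The two-cluster inequality: translation of finite expectations, mass transport between the two
ends of an edge, and the second moment of the explored sums.
-/

namespace Vale.Agent.P151.Growth

open MeasureTheory Finset Critical
open Vale.Agent.P165 (perc openGraph Dep)
open Vale.Agent.P165.Product (edgesAt mem_edgesAt)
open Vale.Agent.P151.Return (wball)
open Classical
open Function (update)

variable {Γ : Type} [Group Γ] {S : Finset Γ} {n N : ℕ} {ω η : Sym2 Γ → Bool}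

/-- A configuration seen from `g`. -/
def pull (g : Γ) (ω : Sym2 Γ → Bool) : Sym2 Γ → Bool := fun e => ω (Sym2.map (g * ·) e)

/-- Left translation of a finite set of edges. -/
noncomputable def tr (g : Γ) (D : Finset (Sym2 Γ)) : Finset (Sym2 Γ) :=
  D.image (Sym2.map (g * ·))

lemma pull_congr {g : Γ} {D : Finset (Sym2 Γ)} (he : ∀ e ∈ tr g D, ω e = η e) :
    ∀ e ∈ D, pull g ω e = pull g η e := fun _ h => he _ (mem_image_of_mem _ h)

lemma ex_tr (g : Γ) (D : Finset (Sym2 Γ)) : ∀ (F : (Sym2 Γ → Bool) → ℝ) (s : ℝ),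
    ex (tr g D) (fun ω => F (pull g ω)) s = ex D F s := by
  have hi : Function.Injective (Sym2.map (g * ·) : Sym2 Γ → Sym2 Γ) :=
    Sym2.map.injective (mul_right_injective g)
  induction D using Finset.induction_on with
  | empty =>
    intro F s
    simp only [tr, image_empty, ex_empty]
    exact congrArg F (funext fun e => by simp [pull, conf])
  | @insert a D ha ih =>
    intro F s
    have hm : Sym2.map (g * ·) a ∉ tr g D := fun h => by
      obtain ⟨c, hc, hca⟩ := mem_image.1 h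
      exact ha (hi hca ▸ hc)
    have hu : ∀ (ω : Sym2 Γ → Bool) (b : Bool),
        pull g (update ω (Sym2.map (g * ·) a) b) = update (pull g ω) a b :=
      fun ω b => Function.update_comp_eq_of_injective ω hi a b
    rw [tr, image_insert, ex_insert (by exact hm), ex_insert ha]
    simp only [hu]
    rw [← ih (fun ω => F (update ω a true)), ← ih (fun ω => F (update ω a false))]
    rfl

/-- Translation does not change an expectation. -/
lemma ex_pull {g : Γ} {D E : Finset (Sym2 Γ)} {F : (Sym2 Γ → Bool) → ℝ}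
    (hF : ∀ ω η, (∀ e ∈ D, ω e = η e) → F ω = F η) (hD : D ⊆ E) (hg : tr g D ⊆ E) (s : ℝ) :
    ex E (fun ω => F (pull g ω)) s = ex E F s := by
  rw [ex_subset hg (fun _ _ he => hF _ _ (pull_congr he)), ex_subset hD hF, ex_tr]

lemma cl_pull (g a : Γ) (ω : Sym2 Γ → Bool) :
    cl S (pull g ω) a = (g * ·) ⁻¹' cl S ω (g * a) :=
  Set.ext fun z => Vale.Agent.P165.openGraph_map_iso (shift S g) ω a z

lemma encard_cl_pull (g a : Γ) (ω : Sym2 Γ → Bool) :
    (cl S (pull g ω) a).encard = (cl S ω (g * a)).encard := by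
  rw [cl_pull]
  exact Set.encard_preimage_of_injective_subset_range (mul_right_injective g)
    fun z _ => ⟨g⁻¹ * z, by simp⟩

lemma mem_cl_pull {g a z : Γ} : z ∈ cl S (pull g ω) a ↔ g * z ∈ cl S ω (g * a) := by
  rw [cl_pull]; rfl

lemma tr_edg_subset (hS : Gen S) {M R : ℕ} {g : Γ} (hg : g ∈ wball S M) (hR : M + N ≤ R) :
    tr g (edg S N 1) ⊆ edg S R 1 := by
  intro e he
  obtain ⟨f, hf, rfl⟩ := mem_image.1 he
  obtain ⟨u, hu, hu'⟩ := mem_biUnion.1 hf
  obtain ⟨w, hw, rfl⟩ := mem_image.1 hu'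
  obtain ⟨v, hv, rfl⟩ := mem_image.1 hu
  rw [Sym2.map_mk]
  refine mem_edgesAt (mem_image.2 ⟨g * v, Return.wball_mono S hR (Return.mul_mem_wball S hg hv),
    by simp⟩) ?_
  rw [hS.adj_iff]
  have := hS.adj_iff.1 (((cg S).mem_neighborFinset _ w).1 hw)
  simpa [mul_assoc] using this

/-- The weight of a number of vertices. -/
noncomputable def phi (n k : ℕ) : ℝ := 1 - (1 - 1 / (n : ℝ)) ^ k

/-- The weight of the cluster of `a`, zero if it has more than `N` vertices. -/
noncomputable def ph (S : Finset Γ) (n N : ℕ) (a : Γ) (ω : Sym2 Γ → Bool) : ℝ :=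
  if (cl S ω a).encard ≤ (N : ℕ∞) then phi n (cl S ω a).ncard else 0

/-- One if `b` is outside the cluster of `a`. -/
noncomputable def off (S : Finset Γ) (a b : Γ) (ω : Sym2 Γ → Bool) : ℝ :=
  if b ∈ cl S ω a then 0 else 1

/-- The sum of the weights of the clusters at the edge between `a` and `b`. -/
noncomputable def pairW (S : Finset Γ) (n N : ℕ) (a b : Γ) (ω : Sym2 Γ → Bool) : ℝ :=
  ph S n N a ω + off S a b ω * ph S n N b ω

/-- The centred edges at `b`, those which leave its cluster counted twice. -/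
noncomputable def flux (S : Finset Γ) (p : ℝ) (b : Γ) (ω : Sym2 Γ → Bool) : ℝ :=
  ∑ s ∈ S, cen s(b, b * s) p ω * (1 + off S b (b * s) ω)

/-- The mass sent from `a` to `b`. -/
noncomputable def mass (S : Finset Γ) (n N : ℕ) (p : ℝ) (a b : Γ) (ω : Sym2 Γ → Bool) : ℝ :=
  if b ∈ cl S ω a then ph S n N a ω / ((cl S ω a).ncard : ℝ) * flux S p b ω else 0

lemma base_mem (hn : 1 ≤ n) : 0 ≤ 1 - 1 / (n : ℝ) ∧ 1 - 1 / (n : ℝ) ≤ 1 := by
  have h : 1 / (n : ℝ) ≤ 1 := by
    rw [div_le_one (by exact_mod_cast hn)]; exact_mod_cast hn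
  constructor <;> linarith [show (0 : ℝ) ≤ 1 / n by positivity]

lemma phi_nonneg (hn : 1 ≤ n) (k : ℕ) : 0 ≤ phi n k :=
  sub_nonneg.2 (pow_le_one₀ (base_mem hn).1 (base_mem hn).2)

lemma phi_le_one (hn : 1 ≤ n) (k : ℕ) : phi n k ≤ 1 :=
  sub_le_self 1 (pow_nonneg (base_mem hn).1 k)

lemma phi_le (hn : 1 ≤ n) (k : ℕ) : phi n k ≤ (k : ℝ) / n := by
  have h := one_add_mul_le_pow (a := -(1 / (n : ℝ))) (by linarith [(base_mem hn).1]) k
  rw [← sub_eq_add_neg] at h
  rw [phi, show (k : ℝ) / n = k * (1 / n) by ring]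
  linarith

lemma phi_large (hn : 1 ≤ n) {k : ℕ} (hk : n ≤ k) : 1 / 2 ≤ phi n k := by
  have h := Real.one_sub_div_pow_le_exp_neg (n := n) (t := 1) (by exact_mod_cast hn)
  have h' := pow_le_pow_of_le_one (base_mem hn).1 (base_mem hn).2 hk
  have h'' : Real.exp (-1) ≤ 1 / 2 := by
    rw [Real.exp_neg, one_div]
    exact inv_anti₀ two_pos (by linarith [Real.add_one_le_exp (1 : ℝ)])
  unfold phi
  linarith

lemma ph_nonneg (hn : 1 ≤ n) (a : Γ) (ω : Sym2 Γ → Bool) : 0 ≤ ph S n N a ω := by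
  unfold ph; split_ifs
  · exact phi_nonneg hn _
  · exact le_rfl

lemma ph_of_big {a : Γ} (h : ¬(cl S ω a).encard ≤ (N : ℕ∞)) : ph S n N a ω = 0 := if_neg h

lemma ph_pull (g a : Γ) (ω : Sym2 Γ → Bool) :
    ph S n N a (pull g ω) = ph S n N (g * a) ω := by
  simp only [ph, Set.ncard_def, encard_cl_pull]

lemma off_pull (g a b : Γ) (ω : Sym2 Γ → Bool) :
    off S a b (pull g ω) = off S (g * a) (g * b) ω := by
  simp only [off, mem_cl_pull]

lemma self_mem_cl (a : Γ) (ω : Sym2 Γ → Bool) : a ∈ cl S ω a := SimpleGraph.Reachable.refl a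

lemma mem_cl_comm {a b : Γ} : b ∈ cl S ω a ↔ a ∈ cl S ω b :=
  ⟨SimpleGraph.Reachable.symm, SimpleGraph.Reachable.symm⟩

lemma flux_pull (g b : Γ) (p : ℝ) (ω : Sym2 Γ → Bool) :
    flux S p b (pull g ω) = flux S p (g * b) ω := by
  simp only [flux, off_pull, mul_assoc]
  refine sum_congr rfl fun s _ => ?_
  rw [show cen s(b, b * s) p (pull g ω) = cen s(g * b, g * (b * s)) p ω by
    simp only [cen, pull, Sym2.map_mk]
    congr]

lemma mass_pull (g a b : Γ) (p : ℝ) (ω : Sym2 Γ → Bool) :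
    mass S n N p a b (pull g ω) = mass S n N p (g * a) (g * b) ω := by
  simp only [mass, mem_cl_pull, ph_pull, flux_pull, Set.ncard_def, encard_cl_pull]

/-- A small cluster is seen in the ball. -/
lemma small_spec (hS : Gen S) (x : Γ) (he : ∀ e ∈ edg S N x, ω e = η e) :
    ((cl S ω x).encard ≤ (N : ℕ∞) → cl S η x = cl S ω x) ∧ ph S n N x ω = ph S n N x η := by
  refine ⟨fun h => cl_congr hS le_rfl h he, ?_⟩
  by_cases h : (cl S ω x).encard ≤ (N : ℕ∞)
  · rw [ph, ph, cl_congr hS le_rfl h he]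
  · rw [ph_of_big h, ph_of_big]
    exact fun h' => h (by rw [cl_congr hS le_rfl h' fun e hm => (he e hm).symm]; exact h')

lemma small_subset (hS : Gen S) {x : Γ} (h : (cl S ω x).encard ≤ (N : ℕ∞)) :
    cl S ω x ⊆ ballAt S N x :=
  ((fnd_of_small hS (R := N) (N := N) (by omega) (Nat.lt_succ_self _) h).2).trans
    (coe_subset.2 (ballAt_mono (by omega) x))

lemma mem_edg_self {b s : Γ} (hS : Gen S) {x : Γ} (hb : b ∈ ballAt S N x) (hs : s ∈ S) :
    s(b, b * s) ∈ edg S N x := mem_edgesAt hb (dart_adj hS hs)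

lemma mass_congr (hS : Gen S) (p : ℝ) (b : Γ) (he : ∀ e ∈ edg S N 1, ω e = η e) :
    mass S n N p 1 b ω = mass S n N p 1 b η := by
  obtain ⟨hc, hp⟩ := small_spec (n := n) hS 1 he
  by_cases h : (cl S ω 1).encard ≤ (N : ℕ∞)
  · have e := hc h
    unfold mass
    rw [e, hp]
    by_cases hb : b ∈ cl S ω 1
    · rw [if_pos hb, if_pos hb]
      refine congrArg _ (sum_congr rfl fun s hs => ?_)
      have h1 : cen s(b, b * s) p ω = cen s(b, b * s) p η := by
        rw [cen, cen, he _ (mem_edg_self hS (mem_coe.1 (small_subset hS h hb)) hs)]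
      have h2 : cl S η b = cl S ω b := by
        rw [cl_eq_of_reach hb, cl_eq_of_reach (show b ∈ cl S η 1 by rw [e]; exact hb), e]
      rw [h1]
      simp only [off, h2]
    · rw [if_neg hb, if_neg hb]
  · unfold mass
    rw [← hp, ph_of_big h]
    simp

lemma sum_inv (hS : Gen S) (f : Γ → ℝ) : ∑ s ∈ S, f s⁻¹ = ∑ s ∈ S, f s :=
  sum_nbij' (·⁻¹) (·⁻¹) (fun s hs => hS.inv_mem s hs) (fun s hs => hS.inv_mem s hs)
    (fun s _ => inv_inv s) (fun s _ => inv_inv s) (fun _ _ => rfl)

/-- Summed over the steps, the two clusters at an edge give the flux of one cluster. -/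
lemma sum_pairW (hS : Gen S) (p : ℝ) {R : ℕ} (hR : N + 1 ≤ R) :
    ∑ s ∈ S, ex (edg S R 1) (fun ω => cen s(1, s) p ω * pairW S n N 1 s ω) p
      = ex (edg S R 1) (fun ω => ph S n N 1 ω * flux S p 1 ω) p := by
  set E := edg S R 1
  let H : Γ → (Sym2 Γ → Bool) → ℝ := fun t ω => cen s(1, t) p ω * off S 1 t ω * ph S n N 1 ω
  have key : ∀ s ∈ S, ex E (fun ω => cen s(1, s) p ω * (off S 1 s ω * ph S n N s ω)) p
      = ex E (H s⁻¹) p := by
    intro s hs
    have hloc : ∀ ω η, (∀ e ∈ edg S N 1, ω e = η e) → H s⁻¹ ω = H s⁻¹ η := by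
      intro ω η he
      obtain ⟨hc, hp⟩ := small_spec (n := n) hS 1 he
      by_cases h : (cl S ω 1).encard ≤ (N : ℕ∞)
      · have he' := he _ (mem_edg_self hS (self_mem_ballAt N 1) (hS.inv_mem s hs))
        rw [one_mul] at he'
        simp only [H, off, cen, hc h, hp, he']
      · simp only [H, ← hp, ph_of_big h, mul_zero]
    rw [← ex_pull hloc (edg_mono (by omega) 1)
      (tr_edg_subset hS (Return.mem_wball_one hs) (by omega)) p]
    refine congrArg (fun F => ex E F p) (funext fun ω => ?_)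
    simp only [H, ph_pull, off_pull, mul_one, mul_inv_cancel]
    rw [show cen s(1, s⁻¹) p (pull s ω) = cen s(1, s) p ω by
      simp [cen, pull, Sym2.map_mk, Sym2.eq_swap]]
    have : off S s 1 ω = off S 1 s ω := by simp only [off, mem_cl_comm]
    rw [this, mul_assoc]
  have hsplit : ∀ s ∈ S, ex E (fun ω => cen s(1, s) p ω * pairW S n N 1 s ω) p
      = ex E (fun ω => cen s(1, s) p ω * ph S n N 1 ω) p + ex E (H s⁻¹) p := by
    intro s hs
    rw [← key s hs, ← ex_add]
    exact congrArg (fun F => ex E F p) (funext fun ω => mul_add _ _ _)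
  rw [sum_congr rfl hsplit, sum_add_distrib, sum_inv hS fun t => ex E (H t) p, ← sum_add_distrib,
    show (fun ω => ph S n N 1 ω * flux S p 1 ω) = fun ω => ∑ s ∈ S,
      (cen s(1, s) p ω * ph S n N 1 ω + H s ω) from funext fun ω => ?_, ex_sum]
  · exact sum_congr rfl fun s _ => (ex_add _ _ _ _).symm
  · simp only [flux, mul_sum, one_mul, H]
    exact sum_congr rfl fun s _ => by ring

lemma sum_mass_to (hS : Gen S) (p : ℝ) (ω : Sym2 Γ → Bool) :
    ∑ b ∈ ballAt S N 1, mass S n N p b 1 ω = ph S n N 1 ω * flux S p 1 ω := by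
  have hm : ∀ b, mass S n N p b 1 ω = if b ∈ cl S ω 1 then
      ph S n N 1 ω / ((cl S ω 1).ncard : ℝ) * flux S p 1 ω else 0 := by
    intro b
    by_cases h : b ∈ cl S ω 1
    · rw [mass, if_pos h, if_pos (mem_cl_comm.1 h)]
      unfold ph
      rw [cl_eq_of_reach h]
    · rw [mass, if_neg h, if_neg (mt mem_cl_comm.1 h)]
  simp only [hm]
  by_cases h : (cl S ω 1).encard ≤ (N : ℕ∞)
  · rw [← sum_filter, sum_const, nsmul_eq_mul]
    have hc : (((ballAt S N 1).filter (· ∈ cl S ω 1) : Finset Γ) : Set Γ) = cl S ω 1 := by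
      ext b
      simp only [coe_filter, Set.mem_ofPred_eq, and_iff_right_iff_imp]
      exact fun hb => mem_coe.1 (small_subset hS h hb)
    have hpos : ((cl S ω 1).ncard : ℝ) ≠ 0 := by
      rw [Nat.cast_ne_zero]
      exact ((Set.ncard_pos (Set.finite_of_encard_le_coe h)).2 ⟨1, self_mem_cl 1 ω⟩).ne'
    rw [← Set.ncard_coe_finset, hc]
    field_simp
  · simp [ph_of_big h]

lemma ballAt_one (R : ℕ) : ballAt S R 1 = wball S R := by simp [ballAt]

/-- Mass transport. -/
lemma ex_flux_eq (hS : Gen S) (p : ℝ) {R : ℕ} (hR : 2 * N ≤ R) :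
    ex (edg S R 1) (fun ω => ph S n N 1 ω * flux S p 1 ω) p
      = ex (edg S R 1) (fun ω => ∑ b ∈ ballAt S N 1, mass S n N p 1 b ω) p := by
  set E := edg S R 1
  rw [show (fun ω => ph S n N 1 ω * flux S p 1 ω) = fun ω => ∑ b ∈ ballAt S N 1, mass S n N p b 1 ω
    from funext fun ω => (sum_mass_to hS p ω).symm, ex_sum, ex_sum]
  have key : ∀ b ∈ ballAt S N 1, ex E (mass S n N p 1 b⁻¹) p = ex E (mass S n N p b 1) p := by
    intro b hb
    rw [ballAt_one] at hb
    rw [← ex_pull (g := b) (fun ω η he => mass_congr hS p b⁻¹ he) (edg_mono (by omega) 1)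
      (tr_edg_subset hS hb (by omega)) p]
    exact congrArg (fun F => ex E F p) (funext fun ω => by rw [mass_pull, mul_one, mul_inv_cancel])
  rw [← sum_congr rfl key]
  have hi : ∀ b ∈ ballAt S N 1, b⁻¹ ∈ ballAt S N 1 := by
    simp only [ballAt_one]
    exact fun b hb => Return.inv_mem_wball hS.inv_mem hb
  exact sum_nbij' (·⁻¹) (·⁻¹) hi hi (fun s _ => inv_inv s) (fun s _ => inv_inv s) (fun _ _ => rfl)

/-- Both orientations of the edges touching a finite set. -/
lemma sum_flux_set (hS : Gen S) (K : Finset Γ) (c : Sym2 Γ → ℝ) :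
    ∑ u ∈ K, ∑ s ∈ S, c s(u, u * s) * (1 + if u * s ∈ K then 0 else 1)
      = 2 * ∑ e ∈ edgesAt (cg S) K, c e := by
  rw [← sum_product', mul_sum]
  rw [← sum_fiberwise_of_maps_to (g := fun q : Γ × Γ => s(q.1, q.1 * q.2))
    (t := edgesAt (cg S) K) fun q hq =>
      mem_edgesAt (mem_product.1 hq).1 (dart_adj hS (mem_product.1 hq).2)]
  refine sum_congr rfl fun e he => ?_
  obtain ⟨u, hu, hu'⟩ := mem_biUnion.1 he
  obtain ⟨w, hw, rfl⟩ := mem_image.1 hu'
  have hs := hS.adj_iff.1 (((cg S).mem_neighborFinset _ w).1 hw)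
  have hne : u ≠ w := (((cg S).mem_neighborFinset _ w).1 hw).ne
  have hf : (K ×ˢ S).filter (fun q : Γ × Γ => s(q.1, q.1 * q.2) = s(u, w))
      = if w ∈ K then {(u, u⁻¹ * w), (w, w⁻¹ * u)} else {(u, u⁻¹ * w)} := by
    ext ⟨a, t⟩
    simp only [mem_filter, mem_product, Sym2.eq_iff]
    constructor
    · rintro ⟨⟨ha, -⟩, ⟨rfl, rfl⟩ | ⟨rfl, rfl⟩⟩
      · split_ifs <;> simp
      · simp [ha]
    · intro h
      split_ifs at h with hwK
      · rcases mem_insert.1 h with h | h
        · obtain ⟨rfl, rfl⟩ := Prod.mk.inj h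
          exact ⟨⟨hu, hs⟩, Or.inl ⟨rfl, by simp⟩⟩
        · obtain ⟨rfl, rfl⟩ := Prod.mk.inj (mem_singleton.1 h)
          refine ⟨⟨hwK, ?_⟩, Or.inr ⟨rfl, by simp⟩⟩
          simpa using hS.inv_mem _ hs
      · obtain ⟨rfl, rfl⟩ := Prod.mk.inj (mem_singleton.1 h)
        exact ⟨⟨hu, hs⟩, Or.inl ⟨rfl, by simp⟩⟩
  rw [hf]
  split_ifs with hwK
  · rw [sum_pair (fun h => hne (Prod.ext_iff.1 h).1)]
    simp only [mul_inv_cancel_left, if_pos hwK, if_pos hu, Sym2.eq_swap (a := w)]
    ring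
  · rw [sum_singleton]
    simp only [mul_inv_cancel_left, if_neg hwK]
    ring

/-- The explored sum with budget for clusters below `2 ^ (j + 1)`. -/
noncomputable def Z (S : Finset Γ) (R : ℕ) (p : ℝ) (j : ℕ) (ω : Sym2 Γ → Bool) : ℝ :=
  cz (tree (S.card * 2 ^ (j + 1) + 1) (edg S R 1) {1}) p ω

/-- The weight of the dyadic scale `j`. -/
noncomputable def scale (n j : ℕ) : ℝ := min (((2 : ℝ) ^ j)⁻¹) (n : ℝ)⁻¹

/-- Pointwise, the mass sent by a cluster is an explored sum. -/
lemma abs_sum_mass_le (hS : Gen S) (hn : 1 ≤ n) (p : ℝ) {R : ℕ} (hR : N ≤ R)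
    (ω : Sym2 Γ → Bool) :
    |∑ b ∈ ballAt S N 1, mass S n N p 1 b ω|
      ≤ ∑ j ∈ range (N + 1), 2 * scale n j * |Z S R p j ω| := by
  have h0 : ∀ j ∈ range (N + 1), 0 ≤ 2 * scale n j * |Z S R p j ω| := fun j _ =>
    mul_nonneg (mul_nonneg two_pos.le (le_min (by positivity) (by positivity))) (abs_nonneg _)
  by_cases h : (cl S ω 1).encard ≤ (N : ℕ∞)
  swap
  · refine le_trans (le_of_eq ?_) (sum_nonneg h0)
    simp [mass, ph_of_big h]
  set k := (cl S ω 1).ncard with hk
  have hfin : (cl S ω 1).Finite := Set.finite_of_encard_le_coe h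
  have hkN : k ≤ N := by
    have := h; rw [← hfin.cast_ncard_eq, Nat.cast_le] at this; exact this
  have hk1 : 1 ≤ k := (Set.ncard_pos hfin).2 ⟨1, self_mem_cl 1 ω⟩
  set j := Nat.log 2 k
  have hj : 2 ^ j ≤ k := Nat.pow_log_le_self 2 (by omega)
  have hj' : k < 2 ^ (j + 1) := Nat.lt_pow_succ_log_self one_lt_two k
  set m := S.card * 2 ^ (j + 1) + 1
  have hbud : S.card * k < m := by
    have := Nat.mul_le_mul_left S.card hj'.le; omega
  obtain ⟨hfnd, -⟩ := fnd_of_small hS (R := R) (N := k) (k := m) (x := 1) (ω := ω) (by omega) hbud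
    (le_of_eq hfin.cast_ncard_eq.symm)
  set K := fnd m (edg S R 1) {1} ω
  have hKc : K.card = k := by rw [hk, ← hfnd, Set.ncard_coe_finset]
  have hKb : K ⊆ ballAt S N 1 := fun v hv =>
    mem_coe.1 (small_subset hS h (hfnd ▸ mem_coe.2 hv))
  have hsub := edg_subset_edgeSet (S := S) R (1 : Γ)
  have hq : queried (tree m (edg S R 1) {1}) ω = edgesAt (cg S) K := by
    refine (queried_subset_edgesAt hsub ω).antisymm fun e he => ?_
    obtain ⟨u, hu, hu'⟩ := mem_biUnion.1 he
    obtain ⟨w, hw, rfl⟩ := mem_image.1 hu'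
    refine queried_of_touch m _ _ ω ?_ _ ?_ ⟨u, hu, Sym2.mem_mk_left u w⟩
    · refine lt_of_le_of_lt ?_ hbud
      refine ((card_le_card (queried_subset_edgesAt hsub ω)).trans (card_edgesAt_le hS _)).trans
        (le_of_eq ?_)
      show S.card * K.card = _
      rw [hKc]
    · exact mem_edgesAt (ballAt_mono hR 1 (hKb hu)) (((cg S).mem_neighborFinset _ w).1 hw)
  have hmem : ∀ v, v ∈ cl S ω 1 ↔ v ∈ K := fun v => by rw [← hfnd, mem_coe]
  have hsum : ∑ b ∈ ballAt S N 1, mass S n N p 1 b ω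
      = ph S n N 1 ω / (k : ℝ) * (2 * Z S R p j ω) := by
    rw [show Z S R p j ω = ∑ e ∈ edgesAt (cg S) K, cen e p ω by rw [← hq]; rfl,
      ← sum_flux_set hS K, mul_sum]
    simp only [mass, hmem, sum_ite_mem, inter_eq_right.2 hKb, ← hk]
    refine sum_congr rfl fun u hu => congrArg _ (sum_congr rfl fun s _ => ?_)
    simp only [off, cl_eq_of_reach ((hmem u).2 hu), hmem]
  have hkpos : (0 : ℝ) < k := by exact_mod_cast hk1
  have hw0 : 0 ≤ ph S n N 1 ω / (k : ℝ) := div_nonneg (ph_nonneg hn _ _) hkpos.le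
  have hw : ph S n N 1 ω / (k : ℝ) ≤ scale n j := by
    rw [ph, if_pos h, ← hk]
    refine le_min ?_ ?_
    · refine (div_le_div_of_nonneg_right (phi_le_one hn k) hkpos.le).trans ?_
      rw [one_div]
      exact inv_anti₀ (by positivity) (by exact_mod_cast hj)
    · rw [div_le_iff₀ hkpos, inv_mul_eq_div]
      exact phi_le hn k
  have hjN : j ∈ range (N + 1) :=
    mem_range.2 (Nat.lt_succ_of_le ((Nat.log_le_self 2 k).trans hkN))
  refine le_trans ?_ (single_le_sum h0 hjN)
  rw [hsum, abs_mul, abs_of_nonneg hw0, abs_mul, abs_two, mul_comm (2 : ℝ) (scale n j),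
    mul_assoc (scale n j)]
  exact mul_le_mul_of_nonneg_right hw (by positivity)

lemma ex_abs_Z_le {p : ℝ} (h0 : 0 ≤ p) (h1 : p ≤ 1) (hD : 1 ≤ S.card) (R j : ℕ) :
    ex (edg S R 1) (fun ω => |Z S R p j ω|) p ≤ Real.sqrt S.card * Real.sqrt 2 ^ j := by
  set E := edg S R (1 : Γ)
  set T := tree (S.card * 2 ^ (j + 1) + 1) E {(1 : Γ)}
  have hcs := ex_sq_le (E := E) (f := fun _ => (1 : ℝ)) (fun _ => zero_le_one)
    (fun ω => |Z S R p j ω|) h0 h1
  simp only [one_mul, ex_one, sq_abs] at hcs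
  have h2 : ex E (fun ω => Z S R p j ω ^ 2) p ≤ (S.card : ℝ) * 2 ^ j := by
    rw [show (fun ω => Z S R p j ω ^ 2) = fun ω => cz T p ω ^ 2 from rfl,
      (cz_moments p T (tree_wf _ _ _)).2]
    have hq : ex E (fun ω => ((queried T ω).card : ℝ)) p ≤ 4 * ((S.card : ℝ) * 2 ^ j) := by
      refine (ex_mono (g := fun _ => 4 * ((S.card : ℝ) * 2 ^ j)) (fun ω => ?_) h0 h1).trans_eq
        (ex_const _ _ _)
      have hc : (queried T ω).card ≤ S.card * 2 ^ (j + 1) + 1 := card_queried_le _ _ _ _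
      have hm : S.card * 2 ^ (j + 1) = S.card * 2 ^ j * 2 := by ring
      have hp : 1 ≤ S.card * 2 ^ j := Nat.mul_pos hD (Nat.pow_pos two_pos)
      have : (queried T ω).card ≤ 4 * (S.card * 2 ^ j) := by omega
      exact_mod_cast this
    have h4 : p * (1 - p) ≤ 1 / 4 := by nlinarith [sq_nonneg (p - 1 / 2)]
    refine (mul_le_mul h4 hq (ex_nonneg (fun ω => Nat.cast_nonneg _) h0 h1) (by norm_num)).trans
      (le_of_eq ?_)
    ring
  have hr : (Real.sqrt S.card * Real.sqrt 2 ^ j) ^ 2 = (S.card : ℝ) * 2 ^ j := by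
    rw [mul_pow, Real.sq_sqrt (Nat.cast_nonneg _), ← pow_mul, mul_comm j, pow_mul,
      Real.sq_sqrt two_pos.le]
  exact le_of_pow_le_pow_left₀ two_ne_zero (by positivity) (hr ▸ hcs.trans h2)

lemma scale_sum_le (hn : 1 ≤ n) (M : ℕ) :
    ∑ j ∈ range M, scale n j * Real.sqrt 2 ^ j ≤ 9 / Real.sqrt n := by
  set r := Real.sqrt 2
  set t := Real.sqrt (n : ℝ)
  have hr2 : r ^ 2 = 2 := Real.sq_sqrt two_pos.le
  have hr : (7 : ℝ) / 5 ≤ r := Real.le_sqrt_of_sq_le (by norm_num)
  have ht : 0 < t := Real.sqrt_pos.2 (by exact_mod_cast hn)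
  have ht2 : t ^ 2 = n := Real.sq_sqrt (Nat.cast_nonneg _)
  suffices ∀ M, ∑ j ∈ range M, scale n j * r ^ j
      ≤ if r ^ M ≤ t then 4 * r ^ M / n else 9 / t - 4 / r ^ M by
    refine (this M).trans ?_
    split_ifs with h
    · rw [← ht2, div_le_div_iff₀ (by positivity) ht]
      nlinarith [mul_le_mul_of_nonneg_right h ht.le]
    · exact sub_le_self _ (by positivity)
  intro M
  induction M with
  | zero =>
    rw [sum_range_zero]
    split_ifs with h
    · positivity
    · rw [pow_zero] at h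
      exact absurd (Real.one_le_sqrt.2 (by exact_mod_cast hn)) h
  | succ M ih =>
    rw [sum_range_succ]
    set a := r ^ M with ha
    have ha0 : 0 < a := by positivity
    have hterm : scale n M * a ≤ a / n ∧ scale n M * a ≤ 1 / a := by
      constructor
      · rw [div_eq_inv_mul]
        exact mul_le_mul_of_nonneg_right (min_le_right _ _) ha0.le
      · refine (mul_le_mul_of_nonneg_right (min_le_left _ _) ha0.le).trans_eq ?_
        rw [show (2 : ℝ) ^ M = a ^ 2 by rw [ha, ← pow_mul, mul_comm, pow_mul, hr2]]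
        field_simp
    rw [pow_succ]
    refine (add_le_add_left ih _).trans ?_
    by_cases h : a ≤ t
    · rw [if_pos h]
      refine (add_le_add_right hterm.1 _).trans ?_
      split_ifs with h'
      · rw [← add_div]
        exact div_le_div_of_nonneg_right (by nlinarith) (Nat.cast_nonneg _)
      · have h1 : 4 * a / n + a / n ≤ 5 / t := by
          rw [← add_div, ← ht2, div_le_div_iff₀ (by positivity) ht]
          nlinarith [mul_le_mul_of_nonneg_right h ht.le]
        have h2 : 4 / (a * r) ≤ 4 / t :=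
          div_le_div_of_nonneg_left (by norm_num) ht (not_le.1 h').le
        have : 9 / t = 5 / t + 4 / t := by ring
        linarith
    · rw [if_neg h]
      refine (add_le_add_right hterm.2 _).trans ?_
      have h' : ¬a * r ≤ t := fun hh => h ((le_mul_of_one_le_right ha0.le (by linarith)).trans hh)
      rw [if_neg h']
      have : 4 / (a * r) ≤ 3 / a := by
        rw [div_le_div_iff₀ (by positivity) ha0]
        nlinarith
      have h3 : 4 / a = 3 / a + 1 / a := by ring
      linarith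

/-- Opening an edge joins the two clusters at it. -/
lemma cl_open {a b : Γ} (hab : (cg S).Adj a b) (ω : Sym2 Γ → Bool) :
    cl S (update ω s(a, b) true) a
        = cl S (update ω s(a, b) false) a ∪ cl S (update ω s(a, b) false) b ∧
      cl S (update ω s(a, b) true) b = cl S (update ω s(a, b) true) a := by
  have hb : b ∈ cl S (update ω s(a, b) true) a :=
    SimpleGraph.Adj.reachable (G := openGraph (cg S) (update ω s(a, b) true)) ⟨hab, by simp⟩
  refine ⟨?_, cl_eq_of_reach hb⟩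
  have hle : ∀ e, update ω s(a, b) false e = true → update ω s(a, b) true e = true := by
    intro e he
    rcases eq_or_ne e s(a, b) with rfl | hne
    · simp
    · simpa [Function.update_of_ne hne] using he
  refine subset_antisymm (fun z hz => ?_)
    (Set.union_subset (cl_mono hle a) ((cl_mono hle b).trans (cl_eq_of_reach hb).subset))
  obtain ⟨q⟩ := hz
  suffices ∀ {u v : Γ}, (openGraph (cg S) (update ω s(a, b) true)).Walk u v →
      u ∈ cl S (update ω s(a, b) false) a ∪ cl S (update ω s(a, b) false) b →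
      v ∈ cl S (update ω s(a, b) false) a ∪ cl S (update ω s(a, b) false) b from
    this q (Or.inl (self_mem_cl a _))
  intro u v q
  induction q with
  | nil => exact id
  | @cons u w v huw q ih =>
    intro hu
    refine ih ?_
    by_cases he : s(u, w) = s(a, b)
    · rcases Sym2.eq_iff.1 he with ⟨-, rfl⟩ | ⟨-, rfl⟩
      · exact Or.inr (self_mem_cl w _)
      · exact Or.inl (self_mem_cl w _)
    · have hadj : (openGraph (cg S) (update ω s(a, b) false)).Adj u w :=
        ⟨huw.1, by simpa [Function.update_of_ne he] using huw.2⟩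
      exact hu.imp (fun h => h.trans hadj.reachable) (fun h => h.trans hadj.reachable)

/-- The event at the sizes between `n` and `N`. -/
def twoTr (S : Finset Γ) (n N : ℕ) (a b : Γ) : Set (Sym2 Γ → Bool) :=
  {ω | ω ∈ twoEv S n a b ∧ (cl S ω a).encard ≤ (N : ℕ∞) ∧ (cl S ω b).encard ≤ (N : ℕ∞)}

lemma dd_pairW {a b : Γ} (hab : (cg S).Adj a b) (hn : 1 ≤ n) (ω : Sym2 Γ → Bool) :
    dd s(a, b) (pairW S n N a b) ω
      ≤ -(1 / 4) * (twoTr S n N a b).indicator 1 (update ω s(a, b) false) := by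
  set ω0 := update ω s(a, b) false
  set ω1 := update ω s(a, b) true
  obtain ⟨h1, h2⟩ := cl_open hab ω
  have hb : b ∈ cl S ω1 a := h1 ▸ Or.inr (self_mem_cl b ω0)
  have e1 : pairW S n N a b ω1 = ph S n N a ω1 := by simp [pairW, off, hb]
  rw [dd, e1]
  by_cases hA : b ∈ cl S ω0 a
  · have hnT : ω0 ∉ twoTr S n N a b := fun h => h.1.2.1 hA
    have : cl S ω1 a = cl S ω0 a := by
      rw [show cl S ω1 a = cl S ω0 a ∪ cl S ω0 b from h1, cl_eq_of_reach hA, Set.union_self]
    rw [Set.indicator_of_notMem hnT, mul_zero]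
    have hph : ph S n N a ω1 = ph S n N a ω0 := by unfold ph; rw [this]
    have e0 : pairW S n N a b ω0 = ph S n N a ω0 := by simp [pairW, off, hA]
    rw [hph, e0, sub_self]
  have e0 : pairW S n N a b ω0 = ph S n N a ω0 + ph S n N b ω0 := by simp [pairW, off, hA]
  rw [e0]
  have hTle : (twoTr S n N a b).indicator (1 : (Sym2 Γ → Bool) → ℝ) ω0 ≤ 1 :=
    Set.indicator_le' (fun _ _ => le_rfl) (fun _ _ => zero_le_one) ω0
  have hlow : ω0 ∈ twoTr S n N a b →
      1 / 2 ≤ ph S n N a ω0 ∧ 1 / 2 ≤ ph S n N b ω0 := by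
    rintro ⟨⟨-, -, ha, hb, hfa, hfb⟩, la, lb⟩
    rw [ph, ph, if_pos la, if_pos lb]
    have ha' : (n : ℕ∞) ≤ (cl S ω0 a).encard := ha
    have hb' : (n : ℕ∞) ≤ (cl S ω0 b).encard := hb
    rw [← hfa.cast_ncard_eq, Nat.cast_le] at ha'
    rw [← hfb.cast_ncard_eq, Nat.cast_le] at hb'
    exact ⟨phi_large hn ha', phi_large hn hb'⟩
  by_cases hU : (cl S ω1 a).encard ≤ (N : ℕ∞)
  · have hdis : Disjoint (cl S ω0 a) (cl S ω0 b) := Set.disjoint_left.2 fun z hz hz' =>
      hA (SimpleGraph.Reachable.trans hz (SimpleGraph.Reachable.symm hz'))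
    have la : (cl S ω0 a).encard ≤ (N : ℕ∞) :=
      (Set.encard_le_encard (h1 ▸ Set.subset_union_left)).trans hU
    have lb : (cl S ω0 b).encard ≤ (N : ℕ∞) :=
      (Set.encard_le_encard (h1 ▸ Set.subset_union_right)).trans hU
    have hcard : (cl S ω1 a).ncard = (cl S ω0 a).ncard + (cl S ω0 b).ncard := by
      rw [show cl S ω1 a = cl S ω0 a ∪ cl S ω0 b from h1]
      exact Set.ncard_union_eq hdis (Set.finite_of_encard_le_coe la)
        (Set.finite_of_encard_le_coe lb)
    have key : ph S n N a ω1 - (ph S n N a ω0 + ph S n N b ω0)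
        = -(ph S n N a ω0 * ph S n N b ω0) := by
      rw [ph, ph, ph, if_pos hU, if_pos la, if_pos lb, hcard]
      simp only [phi, pow_add]
      ring
    rw [key]
    by_cases hT : ω0 ∈ twoTr S n N a b
    · rw [Set.indicator_of_mem hT, Pi.one_apply]
      obtain ⟨qa, qb⟩ := hlow hT
      nlinarith
    · rw [Set.indicator_of_notMem hT, mul_zero, neg_nonpos]
      exact mul_nonneg (ph_nonneg hn _ _) (ph_nonneg hn _ _)
  · rw [ph_of_big hU]
    by_cases hT : ω0 ∈ twoTr S n N a b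
    · obtain ⟨qa, qb⟩ := hlow hT
      linarith
    · rw [Set.indicator_of_notMem hT]
      linarith [ph_nonneg (S := S) (N := N) hn a ω0, ph_nonneg (S := S) (N := N) hn b ω0]

lemma dep_twoTr (hS : Gen S) {s : Γ} (hs : s ∈ S) :
    Dep (twoTr S n N 1 s) (edg S (N + 1) 1) := by
  intro ω η he hω
  obtain ⟨⟨h0, h1, h2, h3, h4, h5⟩, la, lb⟩ := hω
  have e1 := cl_congr hS le_rfl la fun e hm => he e (edg_mono (by omega) 1 hm)
  have e2 := cl_congr hS le_rfl lb fun e hm => he e
    (biUnion_subset_biUnion_of_subset_left _ (fun v hv => by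
      obtain ⟨u, hu, rfl⟩ := mem_image.1 hv
      exact mem_image.2 ⟨s * u, Return.wball_mono S (by omega)
        (Return.mul_mem_wball S (Return.mem_wball_one hs) hu), one_mul _⟩) hm)
  have h0' : η s(1, s) = false := by
    have := he _ (mem_edg_self hS (self_mem_ballAt (N + 1) 1) hs)
    rw [one_mul] at this
    rw [← this]; exact h0
  refine ⟨⟨h0', ?_, ?_, ?_, ?_, ?_⟩, ?_, ?_⟩ <;>
    simp only [big, Set.mem_ofPred_eq, e1, e2] <;> assumption

/-- The derivative form of the two-cluster event at one edge. -/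
lemma real_twoTr_le (hS : Gen S) {s : Γ} (hs : s ∈ S) (hn : 1 ≤ n) (p : unitInterval) {R : ℕ}
    (hR : N + 1 ≤ R) :
    (p : ℝ) / 4 * (perc Γ p).real (twoTr S n N 1 s)
      ≤ -ex (edg S R 1) (fun ω => cen s(1, s) p ω * pairW S n N 1 s ω) p := by
  set E := edg S R (1 : Γ)
  set T := twoTr S n N (1 : Γ) s
  set e := s((1 : Γ), s)
  obtain ⟨h0, h1⟩ := p.2
  have he : e ∈ E := by
    have := mem_edg_self hS (self_mem_ballAt (S := S) R 1) hs
    rwa [one_mul] at this
  have hadj : (cg S).Adj 1 s := by simpa using dart_adj hS (y := (1 : Γ)) hs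
  have hP : (perc Γ p).real T = ex E (T.indicator 1) p :=
    real_eq_ex ((dep_twoTr hS hs).mono (edg_mono hR 1))
  let X := ex (E.erase e) (fun ω => T.indicator 1 (update ω e false)) (p : ℝ)
  have hP' : ex E (T.indicator 1) p = (1 - (p : ℝ)) * X := by
    rw [ex_insert' he]
    have : (fun ω => T.indicator (1 : (Sym2 Γ → Bool) → ℝ) (update ω e true)) = fun _ => 0 :=
      funext fun ω => Set.indicator_of_notMem (fun h => by simpa [e] using h.1.1) _
    rw [this, ex_const, mul_zero, zero_add]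
  have hX : ex E (fun ω => T.indicator 1 (update ω e false)) p = X := by
    rw [ex_insert' he]
    simp only [Function.update_idem]
    ring
  have hd : ex E (dd e (pairW S n N 1 s)) p ≤ -(1 / 4) * X := by
    rw [← hX, ← ex_mul_left]
    exact ex_mono (fun ω => dd_pairW hadj hn ω) h0 h1
  rw [ex_cen he, hP, hP']
  have := mul_le_mul_of_nonneg_left hd (mul_nonneg h0 (by linarith : (0 : ℝ) ≤ 1 - p))
  linarith

/-- The bound uniform in the upper truncation, at the identity. -/
lemma real_twoTr_one_le (hS : Gen S) (hn : 1 ≤ n) (p : unitInterval) (hp : 0 < (p : ℝ))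
    {s : Γ} (hs : s ∈ S) :
    (perc Γ p).real (twoTr S n N 1 s) ≤ 100 * S.card / ((p : ℝ) * Real.sqrt n) := by
  obtain ⟨h0, h1⟩ := p.2
  have hD : 1 ≤ S.card := card_pos.2 ⟨s, hs⟩
  set R := 2 * N + 1 with hR
  set E := edg S R (1 : Γ)
  have hsum : (p : ℝ) / 4 * ∑ t ∈ S, (perc Γ p).real (twoTr S n N 1 t)
      ≤ ∑ j ∈ range (N + 1), 2 * scale n j * ex E (fun ω => |Z S R p j ω|) p := by
    rw [mul_sum]
    refine (sum_le_sum fun t ht => real_twoTr_le hS ht hn p (by omega : N + 1 ≤ R)).trans ?_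
    rw [sum_neg_distrib, sum_pairW hS p (by omega), ex_flux_eq hS p (by omega), neg_eq_neg_one_mul,
      ← ex_mul_left]
    refine (ex_mono (g := fun ω => ∑ j ∈ range (N + 1), 2 * scale n j * |Z S R p j ω|)
      (fun ω => ?_) h0 h1).trans_eq ?_
    · refine le_trans ?_ (abs_sum_mass_le hS hn p (by omega) ω)
      rw [neg_one_mul]
      exact neg_le_abs _
    · simp only [ex_sum, ex_mul_left]
      rfl
  have hsum' : ∑ j ∈ range (N + 1), 2 * scale n j * ex E (fun ω => |Z S R p j ω|) p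
      ≤ 18 * Real.sqrt S.card / Real.sqrt n := by
    refine (sum_le_sum fun j _ => mul_le_mul_of_nonneg_left (ex_abs_Z_le h0 h1 hD R j)
      (mul_nonneg two_pos.le (le_min (by positivity) (by positivity)))).trans ?_
    calc ∑ j ∈ range (N + 1), 2 * scale n j * (Real.sqrt S.card * Real.sqrt 2 ^ j)
        = 2 * Real.sqrt S.card * ∑ j ∈ range (N + 1), scale n j * Real.sqrt 2 ^ j := by
          rw [mul_sum]; exact sum_congr rfl fun j _ => by ring
      _ ≤ 2 * Real.sqrt S.card * (9 / Real.sqrt n) :=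
          mul_le_mul_of_nonneg_left (scale_sum_le hn _) (by positivity)
      _ = _ := by ring
  have hone : (perc Γ p).real (twoTr S n N 1 s) ≤ ∑ t ∈ S, (perc Γ p).real (twoTr S n N 1 t) :=
    single_le_sum (fun t _ => measureReal_nonneg) hs
  have hkey : (p : ℝ) / 4 * (perc Γ p).real (twoTr S n N 1 s)
      ≤ 18 * Real.sqrt S.card / Real.sqrt n :=
    ((mul_le_mul_of_nonneg_left hone (by positivity)).trans hsum).trans hsum'
  have hsq : Real.sqrt S.card ≤ (S.card : ℝ) := by
    rw [Real.sqrt_le_left (Nat.cast_nonneg _)]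
    exact le_self_pow₀ (by exact_mod_cast hD) two_ne_zero
  have ht : 0 < Real.sqrt (n : ℝ) := Real.sqrt_pos.2 (by exact_mod_cast hn)
  rw [le_div_iff₀ (mul_pos hp ht)]
  rw [le_div_iff₀ ht] at hkey
  nlinarith

lemma twoTr_eq_pull (x s : Γ) :
    twoTr S n N x (x * s) = pull x ⁻¹' twoTr S n N 1 s := by
  ext ω
  simp only [Set.mem_preimage, twoTr, twoEv, big, Set.mem_ofPred_eq, mem_cl_pull, mul_one,
    encard_cl_pull, ← Set.encard_lt_top_iff]
  rw [show pull x ω s(1, s) = ω s(x, x * s) by simp [pull, Sym2.map_mk]]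

/-- Translation to the identity. -/
lemma real_twoTr_pull (hS : Gen S) (p : unitInterval) (x : Γ) {s : Γ} (hs : s ∈ S) :
    (perc Γ p).real (twoTr S n N x (x * s)) = (perc Γ p).real (twoTr S n N 1 s) := by
  have hd := dep_twoTr (n := n) (N := N) hS hs
  have hd' : Dep (twoTr S n N x (x * s)) (tr x (edg S (N + 1) 1)) := by
    rw [twoTr_eq_pull]
    exact fun ω η he h => hd _ _ (pull_congr he) h
  rw [real_eq_ex hd', real_eq_ex hd, twoTr_eq_pull,
    ← ex_tr x (edg S (N + 1) 1) ((twoTr S n N 1 s).indicator 1)]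
  rfl

/-- The two-cluster inequality. -/
theorem twoGhost_ok [Countable Γ] (hS : Gen S) : TwoGhost S := by
  intro p hp n hn x s hs
  have hU : twoEv S n x (x * s) = ⋃ N, twoTr S n N x (x * s) := by
    ext ω
    simp only [Set.mem_iUnion]
    constructor
    · intro h
      obtain ⟨-, -, -, -, ha, hb⟩ := id h
      refine ⟨max (cl S ω x).ncard (cl S ω (x * s)).ncard, h, ?_, ?_⟩
      · rw [← ha.cast_ncard_eq]; exact Nat.cast_le.2 (le_max_left _ _)
      · rw [← hb.cast_ncard_eq]; exact Nat.cast_le.2 (le_max_right _ _)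
    · exact fun ⟨N, h⟩ => h.1
  have hmono : Monotone fun N => twoTr S n N x (x * s) := fun N M hNM ω h =>
    ⟨h.1, le_trans (α := ℕ∞) h.2.1 (Nat.cast_le.2 hNM),
      le_trans (α := ℕ∞) h.2.2 (Nat.cast_le.2 hNM)⟩
  rw [measureReal_def, hU, hmono.measure_iUnion]
  refine ENNReal.toReal_le_of_le_ofReal (by positivity) (iSup_le fun N => ?_)
  rw [← ofReal_measureReal (measure_ne_top _ _), real_twoTr_pull hS p x hs]
  exact ENNReal.ofReal_le_ofReal (real_twoTr_one_le hS hn p hp hs)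

end Vale.Agent.P151.Growth
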