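import Mathlib
import Vale.Agent.P151.Growth.Step
import Vale.Agent.P151.Growth.TwoGhost

/-!
The iteration, and the absence of percolation at the critical point.
-/

namespace Vale.Agent.P151.Growth

open MeasureTheory Finset Filter
open scoped Topology
open Vale.Agent.P165 (perc pc openGraph toInf)
open Vale.Agent.P151.Return (wball)

variable {Γ : Type} [Group Γ] [Countable Γ] {S : Finset Γ}

/-- Markov's inequality for the cluster size. -/
lemma mul_aN_le (hS : Gen S) (n : ℕ) {p : unitInterval} (hχ : chi S p ≠ ⊤) :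
    (n : ℝ) * aN S n p ≤ (chi S p).toReal := by
  classical
  have hd : MeasurableSet (big S n (1 : Γ)) :=
    (dep_big (R := n) hS (1 : Γ) (show n ≤ n + 1 by omega)).measurableSet
  have hm : ∀ v : Γ, MeasurableSet {ω | Conn (cg S) ω 1 v} := fun v => measurableSet_conn 1 v
  have key : (n : ENNReal) * perc Γ p (big S n 1) ≤ chi S p := by
    calc (n : ENNReal) * perc Γ p (big S n 1)
        = ∫⁻ ω, (big S n 1).indicator (fun _ => (n : ENNReal)) ω ∂(perc Γ p) :=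
          (lintegral_indicator_const hd _).symm
      _ ≤ ∫⁻ ω, ∑' v, ({ω | Conn (cg S) ω 1 v}).indicator (fun _ => (1 : ENNReal)) ω
            ∂(perc Γ p) := by
          refine lintegral_mono fun ω => ?_
          by_cases h : ω ∈ big S n 1
          · rw [Set.indicator_of_mem h]
            obtain ⟨t, ht, hc⟩ := Set.exists_subset_encard_eq (show (n : ℕ∞) ≤ (cl S ω 1).encard from h)
            obtain ⟨T, rfl⟩ : ∃ T : Finset Γ, t = ↑T :=
              ⟨(Set.finite_of_encard_eq_coe hc).toFinset, (Set.Finite.coe_toFinset _).symm⟩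
            rw [Set.encard_coe_eq_coe_finsetCard, Nat.cast_inj] at hc
            refine le_trans (le_of_eq ?_) (ENNReal.sum_le_tsum T)
            rw [sum_congr rfl fun v hv => Set.indicator_of_mem
              (show ω ∈ {ω | Conn (cg S) ω 1 v} from conn_iff_reachable.2 (ht hv)) _, sum_const,
              nsmul_eq_mul, mul_one, hc]
          · rw [Set.indicator_of_notMem h]; exact bot_le
      _ = chi S p := by
          rw [lintegral_tsum fun v => (measurable_const.indicator (hm v)).aemeasurable]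
          exact tsum_congr fun v => by rw [lintegral_indicator_const (hm v), one_mul]; rfl
  rw [aN, measureReal_def, ← ENNReal.toReal_natCast, ← ENNReal.toReal_mul]
  exact ENNReal.toReal_mono hχ key

lemma geom_le_two (j : ℕ) : ∑ i ∈ range j, Real.exp (-2 * (i : ℝ)) ≤ 2 := by
  have h : Real.exp (-2) ≤ 1 / 2 := by
    rw [Real.exp_neg, inv_le_comm₀ (Real.exp_pos 2) (by norm_num)]
    linarith [Real.add_one_le_exp (2 : ℝ)]
  calc ∑ i ∈ range j, Real.exp (-2 * (i : ℝ)) = ∑ i ∈ range j, Real.exp (-2) ^ i :=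
        sum_congr rfl fun i _ => by rw [← Real.exp_nat_mul]; ring_nf
    _ ≤ ∑ i ∈ range j, (1 / 2 : ℝ) ^ i :=
        sum_le_sum fun i _ => pow_le_pow_left₀ (Real.exp_pos _).le h i
    _ ≤ 2 := sum_geometric_two_le j

lemma self_le_exp_sqrt {x : ℝ} (hx : 0 ≤ x) : x ≤ Real.exp (2 * Real.sqrt x) := by
  have h := Real.quadratic_le_exp_of_nonneg (show 0 ≤ 2 * Real.sqrt x by positivity)
  nlinarith [Real.sq_sqrt hx, Real.sqrt_nonneg x]

/-- The conclusion of one step. -/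
def StepProp (S : Finset Γ) (P0 X0 : ℝ) : Prop :=
  ∀ (p q : unitInterval) (n r : ℕ) (L T : ℝ),
    P0 ≤ (p : ℝ) → (p : ℝ) < pc (cg S) → (p : ℝ) ≤ q → X0 ≤ Real.log n →
    1 ≤ L → L ≤ Real.log n / 24 → Real.exp (-L) ≤ aN S n p →
    3 * L * (2 * r / (c1 P0 * Real.log n) + 1) ≤ T → 200 ≤ gr S r → T + 3 ≤ gr S r / 2 →
    4 * (T + 1) * Real.exp (-Real.sqrt (gr S r / 8)) ≤ (q : ℝ) - p →
    ∃ k : ℕ, gr S r / 8 ≤ Real.log k ∧ Real.exp (-Real.sqrt (gr S r / 8)) ≤ aN S k q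

section steps

variable {P0 X0 A K : ℝ} {p q : unitInterval} {n : ℕ}

omit [Countable Γ] in
lemma first_step (hstep : StepProp S P0 X0) {L0 x : ℝ} (hx : x = Real.log n) (hL01 : 1 ≤ L0)
    (hA : A = 15 * L0 / c1 P0) (hK1 : 128 ≤ K) (hK2 : 2 * (A + 4) ≤ K)
    (hball : ∀ r : ℕ, x ≤ r → K * (r : ℝ) ^ (2 / 3 : ℝ) ≤ gr S r) (hx576 : 576 ≤ x)
    (hxL : 24 * L0 ≤ x) (hxX0 : X0 ≤ x) (hp : P0 ≤ (p : ℝ)) (hpc : (p : ℝ) < pc (cg S))
    (ha : Real.exp (-L0) ≤ aN S n p)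
    (hq : 4 * (A + 1) * x ^ 2 * Real.exp (-(4 * x)) ≤ (q : ℝ) - p) :
    ∃ k : ℕ, 4 * x ≤ Real.sqrt (Real.log k) ∧
      Real.exp (-Real.sqrt (Real.log k)) ≤ aN S k q := by
  have hc := c1_pos P0
  have hx0 : 0 < x := by linarith
  have hA0 : 0 ≤ A := by rw [hA]; positivity
  obtain ⟨r, hr⟩ : ∃ r : ℕ, r = ⌈x ^ 3⌉₊ := ⟨_, rfl⟩
  have hr3 : x ^ 3 ≤ r := hr ▸ Nat.le_ceil _
  have hx1 : (1 : ℝ) ≤ x ^ 3 := one_le_pow₀ (by linarith)
  have hr2 : (r : ℝ) ≤ 2 * x ^ 3 := by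
    rw [hr]
    linarith [(Nat.ceil_lt_add_one (show 0 ≤ x ^ 3 by positivity)).le]
  have hxr : x ≤ r := le_trans (le_self_pow₀ (by linarith) (by norm_num)) hr3
  have hG : K * x ^ 2 ≤ gr S r := by
    refine le_trans ?_ (hball r hxr)
    refine mul_le_mul_of_nonneg_left ?_ (by linarith)
    calc x ^ 2 = (x ^ 3) ^ (2 / 3 : ℝ) := by
          rw [← Real.rpow_natCast x 3, ← Real.rpow_mul hx0.le]; norm_num
      _ ≤ (r : ℝ) ^ (2 / 3 : ℝ) := Real.rpow_le_rpow (by positivity) hr3 (by norm_num)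
  have hT : 3 * L0 * (2 * r / (c1 P0 * x) + 1) ≤ A * x ^ 2 := by
    rw [hA]
    have h1 : 2 * (r : ℝ) / (c1 P0 * x) ≤ 4 * x ^ 2 / c1 P0 := by
      rw [div_le_div_iff₀ (by positivity) hc]
      nlinarith [mul_le_mul_of_nonneg_right hr2 hc.le]
    have h2 : (1 : ℝ) ≤ x ^ 2 / c1 P0 := by
      rw [le_div_iff₀ hc]; nlinarith [c1_le_one P0]
    have h3 : 4 * x ^ 2 / c1 P0 = 4 * (x ^ 2 / c1 P0) := mul_div_assoc _ _ _
    calc 3 * L0 * (2 * r / (c1 P0 * x) + 1) ≤ 3 * L0 * (5 * (x ^ 2 / c1 P0)) :=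
          mul_le_mul_of_nonneg_left (by linarith) (by linarith)
      _ = 15 * L0 / c1 P0 * x ^ 2 := by ring
  have hxsq : (1 : ℝ) ≤ x ^ 2 := one_le_pow₀ (by linarith)
  have hroot : 4 * x ≤ Real.sqrt (gr S r / 8) := by
    refine Real.le_sqrt_of_sq_le ?_
    nlinarith [mul_le_mul_of_nonneg_right hK1 (sq_nonneg x)]
  have hpq : (p : ℝ) ≤ q := by
    have : 0 ≤ 4 * (A + 1) * x ^ 2 * Real.exp (-(4 * x)) := by positivity
    linarith
  obtain ⟨k, hk, hak⟩ := hstep p q n r L0 (A * x ^ 2) hp hpc hpq (hx ▸ hxX0) hL01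
    (by rw [← hx]; linarith) ha (by rw [← hx]; exact hT)
    (by nlinarith [mul_le_mul_of_nonneg_right hK1 (sq_nonneg x)])
    (by nlinarith [mul_le_mul_of_nonneg_right hK2 (sq_nonneg x)]) (by
      refine le_trans ?_ hq
      refine mul_le_mul ?_ (Real.exp_le_exp.2 (neg_le_neg hroot)) (Real.exp_pos _).le (by positivity)
      nlinarith)
  exact ⟨k, hroot.trans (Real.sqrt_le_sqrt hk),
    le_trans (Real.exp_le_exp.2 (neg_le_neg (Real.sqrt_le_sqrt hk))) hak⟩

omit [Countable Γ] in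
lemma next_step (hstep : StepProp S P0 X0) {y z : ℝ} (hy : y = Real.log n)
    (hA : 15 / c1 P0 ≤ A) (hK1 : 128 ≤ K) (hK2 : 2 * (A + 4) ≤ K)
    (hball : ∀ r : ℕ, y ≤ r → K * (r : ℝ) ^ (2 / 3 : ℝ) ≤ gr S r) (hz : 24 ≤ z)
    (hzy : z ≤ Real.sqrt y) (hX0 : X0 ≤ y) (hp : P0 ≤ (p : ℝ)) (hpc : (p : ℝ) < pc (cg S))
    (ha : Real.exp (-Real.sqrt y) ≤ aN S n p)
    (hq : 4 * (A + 1) * Real.exp (-2 * z) ≤ (q : ℝ) - p) :
    ∃ k : ℕ, z + 1 ≤ Real.sqrt (Real.log k) ∧
      Real.exp (-Real.sqrt (Real.log k)) ≤ aN S k q := by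
  have hc := c1_pos P0
  have hA0 : 0 ≤ A := le_trans (by positivity) hA
  have hy0 : 0 ≤ y := by
    by_contra h
    rw [Real.sqrt_eq_zero_of_nonpos (not_le.1 h).le] at hzy
    linarith
  have hys : Real.sqrt y * Real.sqrt y = y := Real.mul_self_sqrt hy0
  have hs24 : 24 ≤ Real.sqrt y := by linarith
  have hy576 : 576 ≤ y := by nlinarith
  obtain ⟨r, hr⟩ : ∃ r : ℕ, r = ⌈y * Real.sqrt y⌉₊ := ⟨_, rfl⟩
  have hr1 : y * Real.sqrt y ≤ r := hr ▸ Nat.le_ceil _
  have hr2 : (r : ℝ) ≤ 2 * (y * Real.sqrt y) := by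
    have : (1 : ℝ) ≤ y * Real.sqrt y := by nlinarith
    rw [hr]
    linarith [(Nat.ceil_lt_add_one (show 0 ≤ y * Real.sqrt y by positivity)).le]
  have hxr : y ≤ r := le_trans (by nlinarith) hr1
  have hG : K * y ≤ gr S r := by
    refine le_trans ?_ (hball r hxr)
    refine mul_le_mul_of_nonneg_left ?_ (by linarith)
    calc y = (y * Real.sqrt y) ^ (2 / 3 : ℝ) := by
          rw [show y * Real.sqrt y = Real.sqrt y ^ 3 by rw [pow_succ, pow_two, hys],
            ← Real.rpow_natCast (Real.sqrt y) 3, ← Real.rpow_mul (Real.sqrt_nonneg y),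
            show ((3 : ℕ) : ℝ) * (2 / 3) = 2 by norm_num, Real.rpow_two, Real.sq_sqrt hy0]
      _ ≤ (r : ℝ) ^ (2 / 3 : ℝ) := Real.rpow_le_rpow (by positivity) hr1 (by norm_num)
  have hT : 3 * Real.sqrt y * (2 * r / (c1 P0 * y) + 1) ≤ A * y := by
    have h1 : 2 * (r : ℝ) / (c1 P0 * y) ≤ 4 * Real.sqrt y / c1 P0 := by
      rw [div_le_div_iff₀ (by positivity) hc]
      nlinarith [mul_le_mul_of_nonneg_right hr2 hc.le]
    have h2 : (1 : ℝ) ≤ Real.sqrt y / c1 P0 := by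
      rw [le_div_iff₀ hc]; linarith [c1_le_one P0]
    have h3 : 4 * Real.sqrt y / c1 P0 = 4 * (Real.sqrt y / c1 P0) := mul_div_assoc _ _ _
    calc 3 * Real.sqrt y * (2 * r / (c1 P0 * y) + 1)
        ≤ 3 * Real.sqrt y * (5 * (Real.sqrt y / c1 P0)) := mul_le_mul_of_nonneg_left
          (by linarith) (by positivity)
      _ = 15 / c1 P0 * y := by
          rw [show 3 * Real.sqrt y * (5 * (Real.sqrt y / c1 P0))
            = 15 / c1 P0 * (Real.sqrt y * Real.sqrt y) by ring, hys]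
      _ ≤ A * y := mul_le_mul_of_nonneg_right hA hy0
  have hroot : 4 * Real.sqrt y ≤ Real.sqrt (gr S r / 8) := by
    refine Real.le_sqrt_of_sq_le ?_
    nlinarith [mul_le_mul_of_nonneg_right hK1 hy0]
  have hpq : (p : ℝ) ≤ q := by
    have : 0 ≤ 4 * (A + 1) * Real.exp (-2 * z) := by positivity
    linarith
  obtain ⟨k, hk, hak⟩ := hstep p q n r (Real.sqrt y) (A * y) hp hpc hpq (hy ▸ hX0) (by linarith)
    (by rw [← hy]; nlinarith) ha (by rw [← hy]; exact hT) (by nlinarith [mul_le_mul_of_nonneg_right hK1 hy0])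
    (by nlinarith [mul_le_mul_of_nonneg_right hK2 hy0]) (by
      refine le_trans ?_ hq
      calc 4 * (A * y + 1) * Real.exp (-Real.sqrt (gr S r / 8))
          ≤ 4 * ((A + 1) * y) * Real.exp (-(4 * Real.sqrt y)) := by
            refine mul_le_mul ?_ (Real.exp_le_exp.2 (neg_le_neg hroot)) (Real.exp_pos _).le
              (by positivity)
            nlinarith
        _ ≤ 4 * (A + 1) * (Real.exp (-(4 * Real.sqrt y)) * Real.exp (2 * Real.sqrt y)) := by
            rw [show 4 * ((A + 1) * y) * Real.exp (-(4 * Real.sqrt y))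
              = 4 * (A + 1) * (Real.exp (-(4 * Real.sqrt y)) * y) by ring]
            gcongr
            exact self_le_exp_sqrt hy0
        _ ≤ 4 * (A + 1) * Real.exp (-2 * z) := by
            rw [← Real.exp_add]; gcongr; linarith)
  refine ⟨k, ?_, le_trans (Real.exp_le_exp.2 (neg_le_neg (Real.sqrt_le_sqrt hk))) hak⟩
  linarith [hroot.trans (Real.sqrt_le_sqrt hk)]

lemma budget_le {C x : ℝ} (hC : 0 ≤ C) (hx : 1 ≤ x) (j : ℕ) :
    C * ∑ i ∈ range j, Real.exp (-2 * (4 * x + (i : ℝ)))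
      ≤ 2 * (C * x ^ 2 * Real.exp (-(4 * x))) := by
  have h1 : ∑ i ∈ range j, Real.exp (-2 * (4 * x + (i : ℝ)))
      = Real.exp (-(4 * x)) * Real.exp (-(4 * x)) * ∑ i ∈ range j, Real.exp (-2 * (i : ℝ)) := by
    rw [mul_sum]
    exact sum_congr rfl fun i _ => by rw [← Real.exp_add, ← Real.exp_add]; ring_nf
  rw [h1]
  calc C * (Real.exp (-(4 * x)) * Real.exp (-(4 * x)) *
        ∑ i ∈ range j, Real.exp (-2 * (i : ℝ)))
      ≤ C * (Real.exp (-(4 * x)) * 1 * 2) := by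
        gcongr
        · exact Real.exp_le_one_iff.2 (by linarith)
        · exact geom_le_two j
    _ ≤ 2 * (C * x ^ 2 * Real.exp (-(4 * x))) := by
        nlinarith [mul_le_mul_of_nonneg_left (show (1 : ℝ) ≤ x ^ 2 by nlinarith)
          (mul_nonneg hC (Real.exp_pos (-(4 * x))).le)]

/-- The iteration. -/
lemma reach (hstep : StepProp S P0 X0) {L0 x C Δ1 : ℝ} (hx : x = Real.log n) (hL01 : 1 ≤ L0)
    (hA : A = 15 * L0 / c1 P0) (hA' : 15 / c1 P0 ≤ A) (hK1 : 128 ≤ K) (hK2 : 2 * (A + 4) ≤ K)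
    (hball : ∀ y : ℝ, x ≤ y → ∀ r : ℕ, y ≤ r → K * (r : ℝ) ^ (2 / 3 : ℝ) ≤ gr S r)
    (hx576 : 576 ≤ x) (hxL : 24 * L0 ≤ x) (hxX0 : X0 ≤ x) (hC : C = 4 * (A + 1))
    (hΔ1 : Δ1 = C * x ^ 2 * Real.exp (-(4 * x))) {us : unitInterval} (hp : P0 ≤ (p : ℝ))
    (hus : (us : ℝ) = (p : ℝ) + 3 * Δ1) (hpc : (us : ℝ) < pc (cg S))
    (ha : Real.exp (-L0) ≤ aN S n p) (hS : Gen S) :
    ∀ j : ℕ, ∃ k : ℕ, 4 * x + j ≤ Real.sqrt (Real.log k) ∧
      Real.exp (-Real.sqrt (Real.log k)) ≤ aN S k us := by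
  have hA0 : 0 ≤ A := le_trans (div_nonneg (by norm_num) (c1_pos P0).le) hA'
  have hC0 : 0 ≤ C := by linarith
  have hΔ0 : 0 ≤ Δ1 := by
    rw [hΔ1]; exact mul_nonneg (mul_nonneg hC0 (sq_nonneg x)) (Real.exp_pos _).le
  let pj : ℕ → ℝ := fun j => (p : ℝ) + Δ1 + C * ∑ i ∈ range j, Real.exp (-2 * (4 * x + i))
  have hlo : ∀ j, (p : ℝ) + Δ1 ≤ pj j := fun j => le_add_of_nonneg_right
    (mul_nonneg hC0 (sum_nonneg fun i _ => (Real.exp_pos _).le))
  have hhi : ∀ j, pj j ≤ us := fun j => by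
    have h := budget_le hC0 (show 1 ≤ x by linarith) j
    rw [← hΔ1] at h
    show (p : ℝ) + Δ1 + C * _ ≤ _
    linarith
  let uj : ℕ → unitInterval := fun j =>
    ⟨pj j, by linarith [p.2.1, hlo j], (hhi j).trans us.2.2⟩
  have huj : ∀ j, ((uj j : unitInterval) : ℝ) = pj j := fun j => rfl
  suffices h : ∀ j : ℕ, ∃ k : ℕ, 4 * x + j ≤ Real.sqrt (Real.log k) ∧
      Real.exp (-Real.sqrt (Real.log k)) ≤ aN S k (uj j) by
    intro j
    obtain ⟨k, h1, h2⟩ := h j
    exact ⟨k, h1, h2.trans (aN_mono hS k (hhi j))⟩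
  intro j
  induction j with
  | zero =>
    obtain ⟨k, h1, h2⟩ := first_step hstep (q := uj 0) hx hL01 hA hK1 hK2 (hball x le_rfl) hx576
      hxL hxX0 hp (by linarith) ha (by
        rw [huj, ← hC, ← hΔ1]
        simp [pj])
    exact ⟨k, by simpa using h1, h2⟩
  | succ j ih =>
    obtain ⟨k, hk, hak⟩ := ih
    have hj0 : (0 : ℝ) ≤ j := Nat.cast_nonneg j
    have hky : x ≤ Real.log k := by
      have h4 : 4 * x ≤ Real.sqrt (Real.log k) := by linarith
      have hpos : 0 ≤ Real.log k := by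
        by_contra h
        rw [Real.sqrt_eq_zero_of_nonpos (not_le.1 h).le] at h4
        linarith
      nlinarith [Real.mul_self_sqrt hpos]
    obtain ⟨k', hk', hak'⟩ := next_step hstep (n := k) (p := uj j) (q := uj (j + 1)) rfl hA' hK1 hK2
      (hball _ hky) (z := 4 * x + j) (by linarith) hk (hxX0.trans hky)
      (by linarith [hlo j, huj j]) (by linarith [hhi j, huj j]) hak (by
        rw [huj, huj, ← hC]
        simp only [pj, sum_range_succ]
        linarith)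
    refine ⟨k', ?_, hak'⟩
    push_cast
    linarith

end steps

/-- No iteration can start at a percolating critical point. -/
lemma percolation_absurd (hS : Gen S) {P0 X0 X1 A K C D L0 δ : ℝ} {R0 : ℕ} {P : unitInterval}
    (hstep : StepProp S P0 X0) (hc : 0 < c1 P0) (hδ : 0 < δ) (hP : (P : ℝ) = pc (cg S))
    (hδdef : δ = (perc Γ P).real (toInf (cg S) 1)) (hP0def : P0 = (P : ℝ) / 2) (hL01 : 1 ≤ L0)
    (hL0 : Real.exp (-L0) ≤ δ / 2) (hAdef : A = 15 * L0 / c1 P0) (hA' : 15 / c1 P0 ≤ A)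
    (hK1 : 128 ≤ K) (hK2 : 2 * (A + 4) ≤ K) (hCdef : C = 4 * (A + 1)) (hC : 0 ≤ C)
    (hD : 1 ≤ D) (hDdef : D = (S.card : ℝ) + 1)
    (hR0 : ∀ r : ℕ, R0 ≤ r → K ≤ gr S r / (r : ℝ) ^ (2 / 3 : ℝ))
    (hX1 : ∀ x : ℝ, X1 ≤ x → 12 * C * D * x ^ 2 * Real.exp (-x) < δ ∧ δ * Real.exp (-x) ≤ P) :
    False := by
  obtain ⟨n, hnX, hn1⟩ : ∃ n : ℕ, max (max X0 X1) (max (max (R0 : ℝ) (24 * L0)) 576)
      ≤ Real.log n ∧ 1 ≤ n := by
    refine ⟨⌈Real.exp (max (max X0 X1) (max (max (R0 : ℝ) (24 * L0)) 576))⌉₊, ?_,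
      Nat.one_le_ceil_iff.2 (Real.exp_pos _)⟩
    exact (Real.log_exp _).symm.le.trans (Real.log_le_log (Real.exp_pos _) (Nat.le_ceil _))
  obtain ⟨x, hx⟩ : ∃ x, x = Real.log n := ⟨_, rfl⟩
  rw [← hx] at hnX
  have hxn : (n : ℝ) = Real.exp x := by rw [hx, Real.exp_log (by exact_mod_cast hn1)]
  simp only [max_le_iff] at hnX
  obtain ⟨⟨hxX0, hxX1⟩, ⟨hxR, hxL⟩, hx576⟩ := hnX
  obtain ⟨hsmall, hxP⟩ := hX1 x hxX1
  have hW : (S.card : ℝ) * n + 1 ≤ D * Real.exp x := by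
    rw [hDdef, hxn, add_mul, one_mul]
    linarith [Real.one_le_exp (show 0 ≤ x by linarith)]
  obtain ⟨ε, hεdef⟩ : ∃ ε, ε = δ / (2 * (D * Real.exp x)) := ⟨_, rfl⟩
  have hε0 : 0 < ε := by
    rw [hεdef]; exact div_pos hδ (mul_pos two_pos (mul_pos (by linarith) (Real.exp_pos x)))
  have hεW : ((S.card : ℝ) * n + 1) * ε ≤ δ / 2 := by
    refine (mul_le_mul_of_nonneg_right hW hε0.le).trans (le_of_eq ?_)
    have hne : D ≠ 0 := by linarith
    rw [hεdef]; field_simp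
  have hεP : ε ≤ P0 := by
    calc ε ≤ δ * Real.exp (-x) / 2 := by
          rw [hεdef, Real.exp_neg, ← div_eq_mul_inv, div_div, mul_comm (Real.exp x) 2]
          refine div_le_div_of_nonneg_left hδ.le (mul_pos two_pos (Real.exp_pos x)) ?_
          exact mul_le_mul_of_nonneg_left (le_mul_of_one_le_left (Real.exp_pos x).le hD) two_pos.le
      _ ≤ (P : ℝ) / 2 := div_le_div_of_nonneg_right hxP two_pos.le
      _ = P0 := hP0def.symm
  have hP' : P0 = (P : ℝ) / 2 := hP0def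
  -- the starting density
  let u0 : unitInterval := ⟨(P : ℝ) - ε, by linarith, by linarith [P.2.2]⟩
  have hu0 : (u0 : ℝ) = (P : ℝ) - ε := rfl
  have ha0 : Real.exp (-L0) ≤ aN S n u0 := by
    refine hL0.trans ?_
    have hθ : δ ≤ aN S n P := by
      rw [hδdef, aN]
      refine measureReal_mono fun ω hω => ?_
      show (n : ℕ∞) ≤ (cl S ω 1).encard
      rw [Set.Infinite.encard_eq (show (cl S ω 1).Infinite from hω)]
      exact le_top
    have hlip := (le_abs_self _).trans (aN_lipschitz hS n P u0)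
    rw [hu0, sub_sub_cancel, abs_of_pos hε0] at hlip
    linarith
  have hball : ∀ y : ℝ, x ≤ y → ∀ r : ℕ, y ≤ r → K * (r : ℝ) ^ (2 / 3 : ℝ) ≤ gr S r := by
    intro y hy r hr
    have hr' : R0 ≤ r := by exact_mod_cast hxR.trans (hy.trans hr)
    have hpos : 0 < (r : ℝ) := by linarith
    have := hR0 r hr'
    rwa [le_div_iff₀ (Real.rpow_pos_of_pos hpos _)] at this
  obtain ⟨Δ1, hΔ1def⟩ : ∃ Δ1, Δ1 = C * x ^ 2 * Real.exp (-(4 * x)) := ⟨_, rfl⟩
  have hΔ1 : 0 ≤ Δ1 := by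
    rw [hΔ1def]; exact mul_nonneg (mul_nonneg hC (sq_nonneg x)) (Real.exp_pos _).le
  have hbudget : 3 * Δ1 < ε := by
    have hpos : 0 < 2 * (D * Real.exp x) := mul_pos two_pos (mul_pos (by linarith) (Real.exp_pos x))
    rw [hεdef, lt_div_iff₀ hpos]
    have h3 : Real.exp (-(4 * x)) * Real.exp x ≤ Real.exp (-x) := by
      rw [← Real.exp_add]; exact Real.exp_le_exp.2 (by linarith)
    have hnn : 0 ≤ C * D * x ^ 2 := mul_nonneg (mul_nonneg hC (by linarith)) (sq_nonneg x)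
    rw [hΔ1def]
    nlinarith [mul_le_mul_of_nonneg_left h3 hnn, mul_nonneg hnn (Real.exp_pos (-x)).le]
  -- the contradiction
  let us : unitInterval := ⟨(P : ℝ) - ε + 3 * Δ1, by linarith, by linarith [P.2.2]⟩
  have hus : (us : ℝ) = (P : ℝ) - ε + 3 * Δ1 := rfl
  have hχ := chi_ne_top (S := S) (p := us) (by linarith)
  have hreach := reach hstep hx hL01 hAdef hA' hK1 hK2 hball hx576 hxL hxX0 hCdef hΔ1def
    (p := u0) (us := us) (by linarith) (by linarith) (by linarith) ha0 hS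
  obtain ⟨j, hj⟩ := exists_nat_gt (chi S us).toReal
  obtain ⟨k, hk, hak⟩ := hreach j
  have hj0 : (0 : ℝ) ≤ j := Nat.cast_nonneg j
  have hs2 : 2 ≤ Real.sqrt (Real.log k) := by linarith
  have hy0 : 0 ≤ Real.log k := by
    by_contra h
    rw [Real.sqrt_eq_zero_of_nonpos (not_le.1 h).le] at hs2
    linarith
  have hk1 : 0 < (k : ℝ) := by
    rcases Nat.eq_zero_or_pos k with rfl | h
    · simp at hs2; linarith
    · exact_mod_cast h
  have h1 : (k : ℝ) * Real.exp (-Real.sqrt (Real.log k)) ≤ (chi S us).toReal := by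
    refine le_trans ?_ (mul_aN_le hS k hχ)
    refine mul_le_mul_of_nonneg_left hak hk1.le
  have h2 : Real.exp (Real.log k + -Real.sqrt (Real.log k)) ≤ (chi S us).toReal := by
    rw [Real.exp_add, Real.exp_log hk1]; exact h1
  nlinarith [Real.add_one_le_exp (Real.log k + -Real.sqrt (Real.log k)), Real.mul_self_sqrt hy0]


/-- Balls of volume larger than every stretched exponential of exponent two thirds leave no room
for an infinite cluster at the critical point. -/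
theorem real_toInf_pc (hS : Gen S)
    (hgr : Tendsto (fun r : ℕ => gr S r / (r : ℝ) ^ (2 / 3 : ℝ)) atTop atTop)
    (P : unitInterval) (hP : (P : ℝ) = pc (cg S)) :
    (perc Γ P).real (toInf (cg S) 1) = 0 := by
  classical
  by_contra hne
  set δ := (perc Γ P).real (toInf (cg S) 1) with hδdef
  have hδ : 0 < δ := lt_of_le_of_ne measureReal_nonneg (Ne.symm hne)
  have hPpos : 0 < (P : ℝ) := by
    rcases eq_or_lt_of_le P.2.1 with h0 | h0
    · refine absurd ((measureReal_eq_zero_iff (measure_ne_top _ _)).2 ?_) hne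
      refine measure_mono_null (t := ⋃ e : Sym2 Γ, Vale.Agent.P165.allOpen {e}) ?_
        (measure_iUnion_null_iff.2 fun e => ?_)
      · intro ω hω
        obtain ⟨u, hu, hu1⟩ := hω.exists_notMem_finset {1}
        obtain ⟨q⟩ := hu
        cases q with
        | nil => simp at hu1
        | @cons _ v _ h q =>
          exact Set.mem_iUnion.2 ⟨s(1, v), by simpa [Vale.Agent.P165.allOpen] using h.2⟩
      · refine (measureReal_eq_zero_iff (measure_ne_top _ _)).1 ?_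
        rw [Vale.Agent.P165.real_allOpen]
        simp [← h0]
    · exact h0
  set P0 := (P : ℝ) / 2 with hP0def
  have hP0 : 0 < P0 := by positivity
  obtain ⟨X0, hstep'⟩ := step hS (twoGhost_ok hS) hP0
  have hstep : StepProp S P0 X0 := hstep'
  have hc := c1_pos P0
  set L0 := max 1 (Real.log (2 / δ)) with hL0def
  have hL01 : 1 ≤ L0 := le_max_left _ _
  have hL0 : Real.exp (-L0) ≤ δ / 2 := by
    rw [Real.exp_neg, inv_le_comm₀ (Real.exp_pos _) (by positivity), inv_div]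
    exact (Real.exp_log (by positivity)).symm.le.trans (Real.exp_le_exp.2 (le_max_right _ _))
  set A := 15 * L0 / c1 P0 with hAdef
  have hA0 : 0 ≤ A := by positivity
  have hA' : 15 / c1 P0 ≤ A := div_le_div_of_nonneg_right (by linarith) hc.le
  set K := max 128 (2 * (A + 4)) with hKdef
  have hK1 : 128 ≤ K := le_max_left _ _
  have hK2 : 2 * (A + 4) ≤ K := le_max_right _ _
  set C := 4 * (A + 1) with hCdef
  set D : ℝ := (S.card : ℝ) + 1 with hDdef
  have hC : 0 < C := by positivity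
  have hD : 1 ≤ D := by rw [hDdef]; linarith [Nat.cast_nonneg (α := ℝ) S.card]
  obtain ⟨R0, hR0⟩ := eventually_atTop.1 (hgr.eventually_ge_atTop K)
  have hev1 : ∀ᶠ x : ℝ in atTop, 12 * C * D * x ^ 2 * Real.exp (-x) < δ := by
    have h := (Real.tendsto_pow_mul_exp_neg_atTop_nhds_zero 2).const_mul (12 * C * D)
    rw [mul_zero] at h
    filter_upwards [h.eventually (gt_mem_nhds hδ)] with x hx
    linarith [show 12 * C * D * x ^ 2 * Real.exp (-x) = 12 * C * D * (x ^ 2 * Real.exp (-x)) by ring]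
  have hev2 : ∀ᶠ x : ℝ in atTop, δ * Real.exp (-x) ≤ (P : ℝ) := by
    have h := Real.tendsto_exp_neg_atTop_nhds_zero.const_mul δ
    rw [mul_zero] at h
    exact (h.eventually (gt_mem_nhds hPpos)).mono fun x hx => hx.le
  obtain ⟨X1, hX1⟩ := eventually_atTop.1 (hev1.and hev2)
  exact percolation_absurd hS hstep hc hδ hP hδdef hP0def hL01 hL0 hAdef hA' hK1 hK2 hCdef
    (le_of_lt hC) hD hDdef hR0 hX1

end Vale.Agent.P151.Growth
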