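import Mathlib
import Vale.Agent.P151.Main
import Vale.Agent.P151.Growth.Iterate

/-!
No percolation at the critical point, and a critical point below one, when the volume of the balls
grows faster than every stretched exponential of exponent two thirds.
-/

namespace Vale.Agent.P151.Growth

open MeasureTheory Filter
open Vale.Agent.P165 (perc openGraph pc toInf)
open Vale.Agent.P151.Return (wball)

theorem main (G : Type) [Group G] [DecidableEq G] (S : Finset G) (hinv : ∀ s ∈ S, s⁻¹ ∈ S)
    (h1 : (1 : G) ∉ S) (hgen : Subgroup.closure (S : Set G) = ⊤)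
    (hgr : Tendsto (fun r : ℕ => Real.log ((wball S r).card : ℝ) / (r : ℝ) ^ (2 / 3 : ℝ))
      atTop atTop) :
    pc (SimpleGraph.mulCayley (S : Set G)) < 1 ∧
      ∀ p : unitInterval, (p : ℝ) = pc (SimpleGraph.mulCayley (S : Set G)) →
        perc G p {ω | ∃ x,
          {y | (openGraph (SimpleGraph.mulCayley (S : Set G)) ω).Reachable x y}.Infinite} = 0 := by
  haveI : Countable G := countable_of_closure hinv hgen
  have hS : Gen S := ⟨hinv, h1⟩
  have hgr' : Tendsto (fun r : ℕ => gr S r / (r : ℝ) ^ (2 / 3 : ℝ)) atTop atTop := by
    refine hgr.congr fun r => ?_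
    unfold gr
    congr 5
    exact Subsingleton.elim _ _
  have h0 : ∀ P : unitInterval, (P : ℝ) = pc (cg S) → (perc G P).real (toInf (cg S) 1) = 0 :=
    real_toInf_pc hS hgr'
  have hle : pc (cg S) ≤ 1 := by
    refine csInf_le ⟨0, ?_⟩ (Set.mem_insert 1 _)
    rintro r (rfl | ⟨q, -, rfl⟩)
    · exact zero_le_one
    · exact q.2.1
  haveI : Infinite G := by
    by_contra hfin
    rw [not_infinite_iff_finite] at hfin
    haveI := Fintype.ofFinite G
    obtain ⟨R, hR⟩ := eventually_atTop.1 (hgr.eventually_ge_atTop (Fintype.card G + 1 : ℝ))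
    have h := hR (max R 1) (le_max_left _ _)
    have hpos : (0 : ℝ) < ((wball S (max R 1)).card : ℕ) := by
      exact_mod_cast Finset.card_pos.2 ⟨1, Return.one_mem_wball S _⟩
    have hl : Real.log ((wball S (max R 1)).card : ℝ) ≤ Fintype.card G :=
      (Real.log_le_sub_one_of_pos hpos).trans (by
        have : ((wball S (max R 1)).card : ℝ) ≤ Fintype.card G := by
          exact_mod_cast Finset.card_le_univ _
        linarith)
    have hr1 : (1 : ℝ) ≤ ((max R 1 : ℕ) : ℝ) ^ (2 / 3 : ℝ) :=
      Real.one_le_rpow (by exact_mod_cast le_max_right R 1) (by norm_num)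
    rw [le_div_iff₀ (by linarith)] at h
    nlinarith [Nat.cast_nonneg (α := ℝ) (Fintype.card G)]
  refine ⟨lt_of_le_of_ne hle fun heq => ?_, fun p hp => ?_⟩
  · have hfull : (perc G 1).real (toInf (cg S) 1) = 1 := by
      have hc : perc G 1 (toInf (cg S) 1)ᶜ = 0 := by
        refine measure_mono_null (t := ⋃ e : Sym2 G, (Vale.Agent.P165.allOpen {e})ᶜ) ?_
          (measure_iUnion_null_iff.2 fun e => ?_)
        · intro ω hω
          by_contra hall
          simp only [Set.mem_iUnion, Set.mem_compl_iff, not_exists, not_not,
            Vale.Agent.P165.allOpen, Finset.mem_singleton, forall_eq, Set.mem_ofPred_eq] at hall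
          refine hω ?_
          have hreach : ∀ y, (openGraph (cg S) ω).Reachable 1 y := by
            intro y
            obtain ⟨l, hl⟩ := exists_mem_wball hinv hgen y
            obtain ⟨k, -, v, hv0, hvk, hv⟩ := exists_steps hl
            rw [← hvk]
            clear hvk
            induction k with
            | zero => rw [hv0]
            | succ i ih =>
              exact (ih fun j hj => hv j (Nat.lt_succ_of_lt hj)).trans
                (SimpleGraph.Adj.reachable ⟨hS.adj_iff.2 (hv i (Nat.lt_succ_self i)), hall _⟩)
          show Set.Infinite {y | (openGraph (cg S) ω).Reachable 1 y}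
          rw [show {y | (openGraph (cg S) ω).Reachable 1 y} = Set.univ from
            Set.eq_univ_of_forall hreach]
          exact Set.infinite_univ
        · have h := Vale.Agent.P165.real_allOpen (p := (1 : unitInterval)) ({e} : Finset (Sym2 G))
          rw [prob_compl_eq_zero_iff (Vale.Agent.P165.measurableSet_allOpen _)]
          rw [← ENNReal.ofReal_toReal (measure_ne_top (perc G 1) (Vale.Agent.P165.allOpen {e})),
            ← measureReal_def, h]
          simp
      rw [measureReal_def, (prob_compl_eq_zero_iff
        (Vale.Agent.P165.measurableSet_toInf 1)).1 hc, ENNReal.toReal_one]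
    have h := h0 1 (by rw [Set.Icc.coe_one]; exact heq.symm)
    rw [hfull] at h
    exact one_ne_zero h
  · have he : {ω | ∃ x, {y | (openGraph (cg S) ω).Reachable x y}.Infinite}
        = ⋃ x, toInf (cg S) x := by
      ext ω; simp [toInf]
    rw [he]
    refine measure_iUnion_null fun x => (measureReal_eq_zero_iff (measure_ne_top _ _)).1 ?_
    have h := Vale.Agent.P165.real_toInf_map (p := p) (shift S x) 1
    rw [h0 p hp, show shift S x 1 = x from mul_one x] at h
    exact h

end Vale.Agent.P151.Growth
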